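import Crest.Agent.R19.Energy

set_option autoImplicit false

/-! Construction of the main family. -/

namespace Crest.Agent.R19

open Finset

attribute [-simp] LaurentPolynomial.single_eq_C_mul_T

/-- the energy bound -/
noncomputable def EB (l j : ℕ) : ℝ := 32 ^ (l * 2 ^ l) * (7 / 10) ^ (j * 2 ^ l)

lemma EB_pos (l j : ℕ) : 0 < EB l j := by unfold EB; positivity

lemma N0_nonneg (μ : Al) (i : ℕ) : 0 ≤ N0 μ i := by
  have : (0 : Al).coeff 0 ≤ (sq μ ^ i).coeff 0 := by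
    apply coeff_zero_mono
    intro t
    rw [ev_sq_pow]
    simp only [map_zero, Complex.zero_re, Complex.ofReal_re]
    positivity
  simpa [N0] using this

lemma sq_sq_pow (μ : Al) (i : ℕ) : sq (sq μ ^ i) = sq μ ^ (2 * i) := by
  have h : dil (-1) (sq μ) = sq μ := by
    simp only [sq, map_mul, dil_dil]
    norm_num [dil_one, mul_comm]
  rw [sq, map_pow, h, ← pow_add, two_mul]

/-- the arithmetic of the induction step -/
lemma EB_step (l j k : ℕ) (hk : 2 ^ (l + 1) ≤ k) (N N' E : ℝ) (hN0 : 0 ≤ N) (hN : N ≤ EB (l + 1) j)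
    (hN'0 : 0 ≤ N') (hN' : N' ≤ EB l j) (hE : (32 : ℝ) ^ k * E ≤ N) :
    2 * (9 / 25) ^ (2 * 2 ^ l) * N + 3 ^ (2 * 2 ^ l) * (N' ^ 2 + E) ≤ EB (l + 1) (j + 1) := by
  set i := 2 * 2 ^ l with hi
  have hi2 : 2 ≤ i := by
    have : 1 ≤ 2 ^ l := Nat.one_le_two_pow
    omega
  have hi' : 2 ^ (l + 1) = i := by rw [pow_succ]; ring
  have hB := EB_pos (l + 1) j
  have e1 : EB (l + 1) (j + 1) = (7 / 10) ^ i * EB (l + 1) j := by
    simp only [EB, hi', add_mul, one_mul, pow_add]; ring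
  have e2 : EB l j ^ 2 * 32 ^ i = EB (l + 1) j := by
    simp only [EB, hi', add_mul, one_mul, pow_add, mul_pow, ← pow_mul]
    have a1 : l * 2 ^ l * 2 = l * i := by rw [hi]; ring
    have a2 : j * 2 ^ l * 2 = j * i := by rw [hi]; ring
    rw [a1, a2]; ring
  have h32 : (0 : ℝ) < 32 ^ i := by positivity
  have h3 : (3 : ℝ) ^ i ≤ (1 / 10) ^ i * 32 ^ i := by
    rw [← mul_pow]; apply pow_le_pow_left₀ <;> norm_num
  have hE' : 3 ^ i * E ≤ (1 / 10) ^ i * EB (l + 1) j := by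
    by_cases hE0 : 0 ≤ E
    · have : (32 : ℝ) ^ i ≤ 32 ^ k := pow_le_pow_right₀ (by norm_num) (hi' ▸ hk)
      have h1 : (32 : ℝ) ^ i * E ≤ EB (l + 1) j :=
        (mul_le_mul_of_nonneg_right this hE0).trans (hE.trans hN)
      calc 3 ^ i * E ≤ ((1 / 10) ^ i * 32 ^ i) * E := mul_le_mul_of_nonneg_right h3 hE0
        _ = (1 / 10) ^ i * (32 ^ i * E) := by ring
        _ ≤ _ := mul_le_mul_of_nonneg_left h1 (by positivity)
    · push Not at hE0
      have : (3 : ℝ) ^ i * E ≤ 0 := mul_nonpos_of_nonneg_of_nonpos (by positivity) hE0.le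
      exact this.trans (by positivity)
  have hN2 : 3 ^ i * N' ^ 2 ≤ (1 / 10) ^ i * EB (l + 1) j := by
    have : N' ^ 2 ≤ EB l j ^ 2 := pow_le_pow_left₀ hN'0 hN' 2
    calc 3 ^ i * N' ^ 2 ≤ ((1 / 10) ^ i * 32 ^ i) * EB l j ^ 2 :=
          mul_le_mul h3 this (by positivity) (by positivity)
      _ = (1 / 10) ^ i * EB (l + 1) j := by rw [← e2]; ring
  have hc : 2 * (9 / 25 : ℝ) ^ i + (1 / 10) ^ i ≤ (6 / 10) ^ i := by
    obtain ⟨s, hs⟩ := Nat.exists_eq_add_of_le hi2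
    rw [hs, pow_add, pow_add, pow_add]
    have b1 : (9 / 25 : ℝ) ^ s ≤ (6 / 10) ^ s := by apply pow_le_pow_left₀ <;> norm_num
    have b2 : (1 / 10 : ℝ) ^ s ≤ (6 / 10) ^ s := by apply pow_le_pow_left₀ <;> norm_num
    have b3 : (0 : ℝ) ≤ (6 / 10) ^ s := by positivity
    nlinarith
  have hd : (6 / 10 : ℝ) ^ i + (1 / 10) ^ i ≤ (7 / 10) ^ i := by
    have := pow_add_pow_le (x := (6 / 10 : ℝ)) (y := 1 / 10) (by norm_num) (by norm_num)
      (show i ≠ 0 by omega)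
    norm_num at this ⊢
    exact this
  have h9 : 2 * (9 / 25 : ℝ) ^ i * N ≤ 2 * (9 / 25) ^ i * EB (l + 1) j :=
    mul_le_mul_of_nonneg_left hN (by positivity)
  rw [e1]
  nlinarith

/-- invariant of the construction -/
structure Inv (Z m : ℕ) (P : Finset ℕ) (j : ℕ) (μ : Al) (X : Finset ℕ) (M : ℕ) : Prop where
  sub : X ⊆ P
  card : X.card ≤ 2 * j
  Mpos : 0 < M
  Mle : M ≤ Z ^ (4 * j)
  dvd : ∀ n ∈ μ.coeff.support, ∃ d : ℕ, n = d ∧ d ∣ M
  bd : Bd μ (Z ^ (2 * j))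
  ev0 : ev 0 μ = 1
  evle : ∀ t, ‖ev t μ‖ ≤ 1
  en : ∀ l ≤ m, N0 μ (2 ^ l) ≤ EB l j
  cmle : ∀ g ≤ j, ∀ β : ℕ, (∀ p ∈ X, Nat.Coprime β p) → 2 ^ m * (2 * Z ^ (2 * g)) < β →
    cm β (sq μ ^ 2 ^ m) ≤ EB m g

lemma inv_zero (Z m : ℕ) (P : Finset ℕ) : Inv Z m P 0 (AddMonoidAlgebra.single 1 1) ∅ 1 := by
  have hbd : Bd (AddMonoidAlgebra.single 1 1) (Z ^ (2 * 0)) := by
    intro n hn
    rw [AddMonoidAlgebra.coeff_single, Finsupp.support_single _ one_ne_zero, mem_singleton] at hn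
    simp [hn]
  have hsq : sq (AddMonoidAlgebra.single 1 1) = 1 := by
    rw [sq, dil_single, AddMonoidAlgebra.single_mul_single]
    simp [AddMonoidAlgebra.one_def]
  have hen : ∀ l, N0 (AddMonoidAlgebra.single 1 1) (2 ^ l) ≤ EB l 0 := by
    intro l
    rw [N0, hsq, one_pow]
    simp only [EB, zero_mul, pow_zero, mul_one, AddMonoidAlgebra.one_def,
      AddMonoidAlgebra.coeff_single, Finsupp.single_eq_same]
    exact one_le_pow₀ (by norm_num)
  refine ⟨empty_subset _, by simp, one_pos, by simp, ?_, hbd, ?_, ?_, fun l _ => hen l, ?_⟩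
  · intro n hn
    rw [AddMonoidAlgebra.coeff_single, Finsupp.support_single _ one_ne_zero, mem_singleton] at hn
    exact ⟨1, by simp [hn], dvd_refl _⟩
  · simp [ev_single, ee_zero]
  · intro t; simp [ev_single, norm_ee]
  · intro g hg β _ hβ
    obtain rfl : g = 0 := by omega
    rw [cm_eq_coeff_zero]
    · exact hen m
    · intro n hn
      exact (hbd.sq.pow _ n hn).trans_lt (by exact_mod_cast hβ)

lemma mem_support_stp {p p' : ℕ} {μ : Al} {n : ℤ} (hn : n ∈ (stp p p' μ).coeff.support) :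
    ∃ u ∈ μ.coeff.support, n = p * u ∨ n = p' * u := by
  rw [stp, AddMonoidAlgebra.coeff_smul] at hn
  have h1 := Finsupp.support_smul hn
  rw [AddMonoidAlgebra.coeff_add] at h1
  have h2 := Finsupp.support_add h1
  rw [mem_union] at h2
  rcases h2 with h | h
  · obtain ⟨u, hu, rfl⟩ := mem_support_dil h
    exact ⟨u, hu, Or.inl rfl⟩
  · obtain ⟨u, hu, rfl⟩ := mem_support_dil h
    exact ⟨u, hu, Or.inr rfl⟩

lemma inv_step {Z m : ℕ} {P : Finset ℕ} (hZ : 2 * 2 ^ m ≤ Z)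
    (hP : ∀ p ∈ P, p.Prime ∧ Z ≤ p ∧ p ≤ Z ^ 2)
    (hcard : (m + 1) * (32 ^ 2 ^ m * (2 * Z + 1)) + 2 ≤ P.card)
    {j : ℕ} (hj : j ≤ Z) {μ : Al} {X : Finset ℕ} {M : ℕ} (h : Inv Z m P j μ X M) :
    ∃ μ' X' M', Inv Z m P (j + 1) μ' X' M' := by
  have hk1 : 1 ≤ 2 ^ m := Nat.one_le_two_pow
  have hZ2 : 2 ≤ Z := by omega
  -- the family of test functions
  let ρ : ℕ → Al := fun l => match l with
    | 0 => μ
    | l + 1 => sq μ ^ 2 ^ l
  have hρN : ∀ l, (sq (ρ l)).coeff 0 = N0 μ (2 ^ l) := by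
    intro l
    cases l with
    | zero => simp [ρ, N0]
    | succ l => simp only [ρ, N0]; rw [sq_sq_pow, pow_succ, mul_comm]
  have hρB : ∀ l ≤ m, Bd (ρ l) (Z ^ (2 * Z + 1)) := by
    intro l hl
    have hpow : Z ^ (2 * j) ≤ Z ^ (2 * Z) := Nat.pow_le_pow_right (by omega) (by omega)
    cases l with
    | zero =>
      apply h.bd.mono
      exact Nat.pow_le_pow_right (by omega) (by omega)
    | succ l =>
      apply (h.bd.sq.pow _).mono
      have : 2 ^ l ≤ 2 ^ m := Nat.pow_le_pow_right (by omega) (by omega)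
      calc 2 ^ l * (2 * Z ^ (2 * j)) = (2 * 2 ^ l) * Z ^ (2 * j) := by ring
        _ ≤ Z * Z ^ (2 * Z) := Nat.mul_le_mul (by omega) hpow
        _ = _ := by ring
  let bad : ℕ → Finset ℕ := fun l =>
    P.filter (fun p => N0 μ (2 ^ l) < ((32 ^ 2 ^ m : ℕ) : ℝ) * eP (ρ l) p)
  have hbad : ∀ l ∈ range (m + 1), (bad l).card ≤ 32 ^ 2 ^ m * (2 * Z + 1) := by
    intro l hl
    apply card_bad_le P (fun p => eP (ρ l) p) (fun p => eP_nonneg _ _) _ _ _ (N0_nonneg _ _)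
    rw [← hρN]
    exact sum_eP_le hZ2 P (fun p hp => ⟨(hP p hp).1, (hP p hp).2.1⟩)
      (hρB l (by rw [mem_range] at hl; omega))
  have hbadU : ((range (m + 1)).biUnion bad).card ≤ (m + 1) * (32 ^ 2 ^ m * (2 * Z + 1)) := by
    have := Finset.card_biUnion_le_card_mul _ _ _ hbad
    simpa using this
  have hgood : 1 < (P \ (range (m + 1)).biUnion bad).card := by
    have := Finset.le_card_sdiff ((range (m + 1)).biUnion bad) P
    omega
  obtain ⟨p, hp, p', hp', hne⟩ := Finset.one_lt_card.1 hgood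
  have hgd : ∀ q ∈ P \ (range (m + 1)).biUnion bad, ∀ l ≤ m,
      (32 : ℝ) ^ 2 ^ m * eP (ρ l) q ≤ N0 μ (2 ^ l) := by
    intro q hq l hl
    rw [mem_sdiff, mem_biUnion] at hq
    by_contra hcon
    push Not at hcon
    apply hq.2
    refine ⟨l, mem_range.2 (by omega), mem_filter.2 ⟨hq.1, ?_⟩⟩
    push_cast
    exact hcon
  have hpP := (mem_sdiff.1 hp).1
  have hpP' := (mem_sdiff.1 hp').1
  obtain ⟨hpp, hpZ, hpZ2⟩ := hP p hpP
  obtain ⟨hpp', hpZ', hpZ2'⟩ := hP p' hpP'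
  have hμ0 : μ.coeff 0 = 0 := by
    by_contra h0
    obtain ⟨d, hd, hdM⟩ := h.dvd 0 (Finsupp.mem_support_iff.2 h0)
    have : d = 0 := by exact_mod_cast hd.symm
    subst this
    have := h.Mpos
    rw [zero_dvd_iff] at hdM
    omega
  have hbd : Bd (stp p p' μ) (Z ^ (2 * (j + 1))) := by
    intro n hn
    obtain ⟨u, hu, hn'⟩ := mem_support_stp hn
    have h1 := h.bd u hu
    have e : ((Z ^ (2 * (j + 1)) : ℕ) : ℤ) = ((Z ^ 2 : ℕ) : ℤ) * ((Z ^ (2 * j) : ℕ) : ℤ) := by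
      push_cast; ring
    rw [e]
    rcases hn' with rfl | rfl
    · rw [abs_mul, Nat.abs_cast]
      exact mul_le_mul (by exact_mod_cast hpZ2) h1 (abs_nonneg _) (by positivity)
    · rw [abs_mul, Nat.abs_cast]
      exact mul_le_mul (by exact_mod_cast hpZ2') h1 (abs_nonneg _) (by positivity)
  have hen : ∀ l ≤ m, N0 (stp p p' μ) (2 ^ l) ≤ EB l (j + 1) := by
    intro l hl
    cases l with
    | zero =>
      have h1 := N0_stp_one hpp hpp' hne μ hμ0
      have h2 := hgd p hp 0 hl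
      have h3 := hgd p' hp' 0 hl
      have h4 := h.en 0 hl
      simp only [ρ, pow_zero] at h2 h3 h4 ⊢
      have h5 : (32 : ℝ) ≤ 32 ^ 2 ^ m := le_self_pow₀ (by norm_num) (by omega)
      have h6 := eP_nonneg μ p
      have h7 := eP_nonneg μ p'
      have h8 : EB 0 (j + 1) = 7 / 10 * EB 0 j := by simp [EB, pow_succ]; ring
      have h9 := N0_nonneg μ 1
      rw [h8]
      nlinarith
    | succ l =>
      have h1 := N0_stp_even hpp hpp' hne μ (2 ^ l)
      have h2 := hgd p hp (l + 1) hl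
      have h3 := hgd p' hp' (l + 1) hl
      simp only [ρ] at h2 h3
      have e : 2 ^ (l + 1) = 2 * 2 ^ l := by rw [pow_succ]; ring
      rw [e]
      refine h1.trans ?_
      apply EB_step l j (2 ^ m) (Nat.pow_le_pow_right (by omega) hl) _ _ _ (N0_nonneg _ _)
        (e ▸ h.en (l + 1) hl) (N0_nonneg _ _) (h.en l (by omega))
      rw [e] at h2 h3
      linarith
  refine ⟨stp p p' μ, insert p (insert p' X), p * p' * M, ?_, ?_, ?_, ?_, ?_, hbd, ?_, ?_, hen, ?_⟩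
  · intro q hq
    simp only [mem_insert] at hq
    rcases hq with rfl | rfl | hq
    exacts [hpP, hpP', h.sub hq]
  · have h1 := Finset.card_insert_le p (insert p' X)
    have h2 := Finset.card_insert_le p' X
    have := h.card
    omega
  · have := h.Mpos
    have := hpp.pos
    have := hpp'.pos
    positivity
  · have e : Z ^ (4 * (j + 1)) = Z ^ 2 * Z ^ 2 * Z ^ (4 * j) := by ring
    rw [e]
    exact Nat.mul_le_mul (Nat.mul_le_mul hpZ2 hpZ2') h.Mle
  · intro n hn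
    obtain ⟨u, hu, hn'⟩ := mem_support_stp hn
    obtain ⟨d, rfl, hd⟩ := h.dvd u hu
    rcases hn' with rfl | rfl
    · exact ⟨p * d, by push_cast; ring, mul_dvd_mul (Dvd.intro _ rfl) hd⟩
    · exact ⟨p' * d, by push_cast; ring, mul_dvd_mul (Dvd.intro_left _ rfl) hd⟩
  · rw [ev_stp, ev_dil, ev_dil, mul_zero, mul_zero, h.ev0]; norm_num
  · intro t
    refine (norm_ev_stp t p p' μ).trans ?_
    rw [ev_dil, ev_dil]
    have h1 := h.evle ((p : ℤ) * t)
    have h2 := h.evle ((p' : ℤ) * t)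
    linarith
  · intro g hg β hcop hβ
    rcases Nat.lt_or_ge j g with hjg | hjg
    · obtain rfl : g = j + 1 := by omega
      rw [cm_eq_coeff_zero]
      · exact hen m le_rfl
      · intro n hn
        exact (hbd.sq.pow _ n hn).trans_lt (by exact_mod_cast hβ)
    · refine (cm_stp_le (by omega) (hcop p (by simp)) (hcop p' (by simp)) μ _).trans ?_
      exact h.cmle g hjg β (fun q hq => hcop q (by simp [hq])) hβ

lemma exists_inv {Z m : ℕ} {P : Finset ℕ} (hZ : 2 * 2 ^ m ≤ Z)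
    (hP : ∀ p ∈ P, p.Prime ∧ Z ≤ p ∧ p ≤ Z ^ 2)
    (hcard : (m + 1) * (32 ^ 2 ^ m * (2 * Z + 1)) + 2 ≤ P.card) :
    ∀ j ≤ Z, ∃ μ X M, Inv Z m P j μ X M := by
  intro j
  induction j with
  | zero => exact fun _ => ⟨_, _, _, inv_zero Z m P⟩
  | succ j ih =>
    intro hj
    obtain ⟨μ, X, M, h⟩ := ih (by omega)
    exact inv_step hZ hP hcard (by omega) h

end Crest.Agent.R19
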