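import Crest.Agent.R19.Uni

set_option autoImplicit false

/-! The universal covering theorem: sums of few divisors of a fixed integer cover all residue
classes modulo all admissible moduli. -/

namespace Crest.Agent.R19

open Finset

attribute [-simp] LaurentPolynomial.single_eq_C_mul_T

lemma two_pow_le_primesLE (n : ℕ) (hn : 0 < n) : 2 ^ n ≤ (n + 1) * n ^ (Nat.primesLE n).card := by
  refine (Chebyshev.two_pow_le_mul_lcmUpto n).trans (Nat.mul_le_mul_left _ ?_)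
  rw [Nat.lcmUpto_eq_prod_pow_log]
  exact Finset.prod_le_pow_card _ _ _ fun p _ => Nat.pow_log_le_self p hn.ne'

lemma exists_primes {m Z : ℕ} (h1 : 2 ^ (40 * 2 ^ m) ≤ Z) (h2 : Z < 2 ^ (80 * 2 ^ m)) :
    ∃ P : Finset ℕ, (∀ p ∈ P, p.Prime ∧ 2 * Z < p ∧ p ≤ Z ^ 2) ∧
      (m + 1) * (32 ^ 2 ^ m * (2 * Z + 1)) + 2 ≤ P.card := by
  set k := 2 ^ m with hk
  set u := 2 ^ k with hu
  have hk1 : 1 ≤ k := Nat.one_le_two_pow
  have hmk : m + 1 ≤ k := Nat.lt_two_pow_self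
  have hku : k + 1 ≤ u := Nat.lt_two_pow_self
  have hu2 : 2 ≤ u := by omega
  have hZu : u ^ 40 ≤ Z := by rw [hu, ← pow_mul, mul_comm]; exact h1
  have hZ0 : 0 < Z := lt_of_lt_of_le (by positivity) hZu
  refine ⟨(Nat.primesLE (Z ^ 2)).filter (fun p => 2 * Z < p), ?_, ?_⟩
  · intro p hp
    rw [mem_filter, Nat.mem_primesLE] at hp
    exact ⟨hp.1.2, hp.2, hp.1.1⟩
  set π := (Nat.primesLE (Z ^ 2)).card with hπ
  have hc : π ≤ ((Nat.primesLE (Z ^ 2)).filter (fun p => 2 * Z < p)).card + (2 * Z + 1) := by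
    have := Finset.card_filter_add_card_filter_not (s := Nat.primesLE (Z ^ 2)) (fun p => 2 * Z < p)
    have h' : ((Nat.primesLE (Z ^ 2)).filter (fun p => ¬ 2 * Z < p)).card ≤ 2 * Z + 1 := by
      rw [← card_range (2 * Z + 1)]
      apply Finset.card_le_card
      intro p hp
      rw [mem_filter] at hp
      rw [mem_range]; omega
    omega
  have h3 := two_pow_le_primesLE (Z ^ 2) (by positivity)
  have h4 : Z ^ 2 + 1 ≤ 2 ^ (160 * k) := by
    have : Z ^ 2 < (2 ^ (80 * k)) ^ 2 := Nat.pow_lt_pow_left h2 (by norm_num)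
    rw [← pow_mul] at this
    have e : 80 * k * 2 = 160 * k := by ring
    rw [e] at this
    omega
  have h5 : 2 ^ (Z ^ 2) ≤ 2 ^ (160 * k * (π + 1)) := by
    refine h3.trans ?_
    rw [pow_mul, pow_succ' (2 ^ (160 * k))]
    exact Nat.mul_le_mul h4 (Nat.pow_le_pow_left (by omega) _)
  have h6 : Z ^ 2 ≤ 160 * k * (π + 1) := (Nat.pow_le_pow_iff_right (by norm_num)).1 h5
  have h7 : 32 ^ k = u ^ 5 := by rw [hu, ← pow_mul, mul_comm, pow_mul]; norm_num
  rw [h7]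
  by_contra hcon
  push Not at hcon
  have h8 : (m + 1) * (u ^ 5 * (2 * Z + 1)) ≤ u * (u ^ 5 * (3 * Z)) :=
    Nat.mul_le_mul (by omega) (Nat.mul_le_mul_left _ (by omega))
  have h9 : 1 ≤ u ^ 6 := Nat.one_le_pow _ _ (by omega)
  have h10 : π + 1 ≤ u ^ 6 * (8 * Z) := by nlinarith
  have h11 : Z * Z ≤ (160 * u * (u ^ 6 * 8)) * Z := by
    calc Z * Z = Z ^ 2 := by ring
      _ ≤ 160 * k * (π + 1) := h6
      _ ≤ 160 * u * (u ^ 6 * (8 * Z)) := Nat.mul_le_mul (by omega) h10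
      _ = _ := by ring
  have h12 : Z ≤ 160 * u * (u ^ 6 * 8) := Nat.le_of_mul_le_mul_right h11 hZ0
  have h13 : 2 ^ 33 ≤ u ^ 33 := Nat.pow_le_pow_left hu2 _
  have h14 : u ^ 40 = u ^ 33 * u ^ 7 := by ring
  have h15 : 0 < u ^ 7 := by positivity
  have h16 : 160 * u * (u ^ 6 * 8) = 1280 * u ^ 7 := by ring
  nlinarith

lemma choose_bound {Z g : ℕ} (hg : 1 ≤ g) (h : 4 * g ^ 2 ≤ Z) :
    4 * Z ^ g ≤ ((2 * Z).choose g) ^ 2 := by
  have hgZ : g ≤ Z := by nlinarith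
  have h1 : Z ^ g ≤ g ^ g * (2 * Z).choose g := by
    calc Z ^ g ≤ (2 * Z + 1 - g) ^ g := Nat.pow_le_pow_left (by omega) _
      _ ≤ (2 * Z).descFactorial g := Nat.pow_sub_le_descFactorial _ _
      _ = g.factorial * (2 * Z).choose g := Nat.descFactorial_eq_factorial_mul_choose _ _
      _ ≤ _ := Nat.mul_le_mul_right _ (Nat.factorial_le_pow g)
  have h2 : 4 * (g ^ g) ^ 2 ≤ Z ^ g := by
    calc 4 * (g ^ g) ^ 2 ≤ 4 ^ g * (g ^ g) ^ 2 :=
          Nat.mul_le_mul_right _ (Nat.le_self_pow (by omega) 4)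
      _ = (4 * g ^ 2) ^ g := by rw [mul_pow, ← pow_mul, ← pow_mul, mul_comm g 2]
      _ ≤ Z ^ g := Nat.pow_le_pow_left h _
  have h3 : 0 < Z ^ g := Nat.pow_pos (by omega)
  apply Nat.le_of_mul_le_mul_left _ h3
  calc Z ^ g * (4 * Z ^ g) = 4 * (Z ^ g) ^ 2 := by ring
    _ ≤ 4 * (g ^ g * (2 * Z).choose g) ^ 2 := Nat.mul_le_mul_left _ (Nat.pow_le_pow_left h1 2)
    _ = (4 * (g ^ g) ^ 2) * ((2 * Z).choose g) ^ 2 := by ring
    _ ≤ _ := Nat.mul_le_mul_right _ h2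

lemma EB_bound {m g : ℕ} (hm : 1 ≤ m) (hg : 24 * m ≤ g) :
    (2 * EB m g) ^ 4 * 2 ^ (g * 2 ^ m) ≤ 1 := by
  set k := 2 ^ m with hk
  have hk1 : 1 ≤ k := Nat.one_le_two_pow
  have e : (2 * EB m g) ^ 4 = 2 ^ (4 + 20 * (m * k)) * ((7 / 10) ^ 4) ^ (g * k) := by
    have : (32 : ℝ) = 2 ^ 5 := by norm_num
    rw [EB, ← hk, this, mul_pow, mul_pow, ← pow_mul, ← pow_mul, ← pow_mul, ← pow_mul, pow_add]
    have a1 : 5 * (m * k * 4) = 20 * (m * k) := by ring
    have a2 : g * k * 4 = 4 * (g * k) := by ring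
    rw [a1, a2]; ring
  have h1 : (2 : ℝ) ^ (4 + 20 * (m * k)) ≤ 2 ^ (g * k) := by
    apply pow_le_pow_right₀ (by norm_num)
    have : 1 ≤ m * k := Nat.mul_pos hm hk1
    nlinarith
  rw [e]
  calc (2 : ℝ) ^ (4 + 20 * (m * k)) * ((7 / 10) ^ 4) ^ (g * k) * 2 ^ (g * k)
      ≤ 2 ^ (g * k) * ((7 / 10) ^ 4) ^ (g * k) * 2 ^ (g * k) := by gcongr
    _ = (2 * (7 / 10) ^ 4 * 2) ^ (g * k) := by rw [mul_pow, mul_pow]
    _ ≤ 1 := pow_le_one₀ (by norm_num) (by norm_num)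

/-- the combined family, before multipliers -/
lemma exists_G {m Z : ℕ} (hm : 1 ≤ m) (h1 : 2 ^ (40 * 2 ^ m) ≤ Z) (h2 : Z < 2 ^ (80 * 2 ^ m)) :
    ∃ (G : Al) (MG : ℕ) (X : Finset ℕ), 0 < MG ∧ MG ≤ Z ^ (9 * Z) ∧ Z.factorial ∣ MG ∧
      X.card ≤ 2 * Z ∧ (∀ p ∈ X, p.Prime ∧ 2 * Z < p) ∧ Gd MG (52 * 2 ^ m) G ∧ ev 0 G = 1 ∧
      (∀ t, ‖ev t G‖ ≤ 1) ∧
      ∀ β : ℕ, (2 ^ 2 ^ m) ^ 9 < β → β ≤ Z ^ Z → (∀ p ∈ X, Nat.Coprime β p) →
        ∃ (H : Al) (i : ℕ), (∀ t, ‖ev t G‖ ≤ ‖ev t H‖ ^ (2 * i)) ∧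
          (2 * cm β (sq H ^ i)) ^ 4800 * (β : ℝ) ^ 3 ≤ 1 := by
  obtain ⟨P, hP, hcard⟩ := exists_primes h1 h2
  set k := 2 ^ m with hk
  set u := 2 ^ k with hu
  have hk1 : 1 ≤ k := Nat.one_le_two_pow
  have hmk : m + 1 ≤ k := Nat.lt_two_pow_self
  have hku : k + 1 ≤ u := Nat.lt_two_pow_self
  have hu2 : 2 ≤ u := by omega
  have hZu : u ^ 40 ≤ Z := by rw [hu, ← pow_mul, mul_comm]; exact h1
  have hZu' : Z < u ^ 80 := by rw [hu, ← pow_mul, mul_comm]; exact h2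
  have hu14 : 2 ^ 14 * u ^ 2 ≤ Z := by
    have : 2 ^ 14 ≤ u ^ 38 := (Nat.pow_le_pow_right (by omega) (by norm_num)).trans
      (Nat.pow_le_pow_left hu2 38)
    calc 2 ^ 14 * u ^ 2 ≤ u ^ 38 * u ^ 2 := Nat.mul_le_mul_right _ this
      _ = u ^ 40 := by ring
      _ ≤ Z := hZu
  have hkZ : 2 * k < Z := by nlinarith
  have hZ1 : 1 < Z := by omega
  have hu9 : u ^ 9 ≤ Z := (Nat.pow_le_pow_right (by omega) (by norm_num)).trans hZu
  obtain ⟨μ, X, MX, hI⟩ := exists_inv (Z := Z) (m := m) (P := P) hkZ.le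
    (fun p hp => ⟨(hP p hp).1, by have := (hP p hp).2.1; omega, (hP p hp).2.2⟩) hcard Z le_rfl
  have hP2 : 2 * Z ≤ P.card := by
    have a1 : 1 ≤ 32 ^ k := Nat.one_le_pow _ _ (by norm_num)
    have a2 : 2 * Z + 1 ≤ 32 ^ k * (2 * Z + 1) := Nat.le_mul_of_pos_left _ a1
    have a3 : 32 ^ k * (2 * Z + 1) ≤ (m + 1) * (32 ^ k * (2 * Z + 1)) :=
      Nat.le_mul_of_pos_left _ (by omega)
    omega
  obtain ⟨P0, hP0, hP0c⟩ := Finset.exists_subset_card_eq hP2
  set Ua : Al := uni (range (u ^ 9)) (fun x => x + 1) with hUa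
  set Ub : ℕ → Al := fun g => uni (powersetCard g P0) (fun s => ∏ p ∈ s, p) with hUb
  have hUb1 : ∀ t, ‖ev t (∏ g ∈ Icc 1 (24 * m), Ub g ^ 2)‖ ≤ 1 := by
    intro t
    rw [map_prod, norm_prod]
    apply Finset.prod_le_one (fun _ _ => norm_nonneg _)
    intro g _
    rw [map_pow, norm_pow]
    exact pow_le_one₀ (norm_nonneg _) (norm_ev_uni _ _ _)
  have hUa1 : ∀ t, ‖ev t Ua‖ ^ 2 ≤ 1 := fun t => pow_le_one₀ (norm_nonneg _) (norm_ev_uni _ _ _)
  have hμ1 : ∀ t, ‖ev t μ‖ ^ (2 * k) ≤ 1 := fun t => pow_le_one₀ (norm_nonneg _) (hI.evle t)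
  have hnorm : ∀ t, ‖ev t (μ ^ (2 * k) * Ua ^ 2 * ∏ g ∈ Icc 1 (24 * m), Ub g ^ 2)‖ =
      ‖ev t μ‖ ^ (2 * k) * ‖ev t Ua‖ ^ 2 * ‖ev t (∏ g ∈ Icc 1 (24 * m), Ub g ^ 2)‖ := by
    intro t
    rw [map_mul, map_mul, norm_mul, norm_mul, map_pow, map_pow, norm_pow, norm_pow]
  have hg2 : ∀ g ≤ 24 * m, 4 * g ^ 2 ≤ Z := by
    intro g hg
    have : g ≤ 24 * u := by omega
    nlinarith
  have hP0prod : 0 < ∏ p ∈ P0, p := Finset.prod_pos fun p hp => (hP p (hP0 hp)).1.pos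
  refine ⟨μ ^ (2 * k) * Ua ^ 2 * ∏ g ∈ Icc 1 (24 * m), Ub g ^ 2,
    MX * (∏ p ∈ P0, p) * Z.factorial, X, ?_, ?_, Dvd.intro_left _ rfl, hI.card,
    fun p hp => ⟨(hP p (hI.sub hp)).1, (hP p (hI.sub hp)).2.1⟩, ?_, ?_, ?_, ?_⟩
  · have := hI.Mpos
    have := Z.factorial_pos
    positivity
  · have a1 := hI.Mle
    have a2 : ∏ p ∈ P0, p ≤ (Z ^ 2) ^ (2 * Z) := by
      rw [← hP0c]
      exact Finset.prod_le_pow_card _ _ _ fun p hp => (hP p (hP0 hp)).2.2
    have a3 := Nat.factorial_le_pow Z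
    calc _ ≤ Z ^ (4 * Z) * (Z ^ 2) ^ (2 * Z) * Z ^ Z := Nat.mul_le_mul (Nat.mul_le_mul a1 a2) a3
      _ = _ := by rw [← pow_mul, ← pow_add, ← pow_add]; congr 1; ring
  · have a1 : Gd (MX * (∏ p ∈ P0, p) * Z.factorial) 1 μ :=
      (Gd.of_dvd hI.dvd).mono ((Dvd.intro _ rfl).mul_right _) le_rfl
    have a2 : Gd (MX * (∏ p ∈ P0, p) * Z.factorial) 1 Ua := by
      apply Gd.uni
      intro x hx
      rw [mem_range] at hx
      exact (Nat.dvd_factorial (by omega) (by omega)).mul_left _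
    have a3 : ∀ g ∈ Icc 1 (24 * m), Gd (MX * (∏ p ∈ P0, p) * Z.factorial) (2 * 1) (Ub g ^ 2) := by
      intro g _
      apply Gd.pow
      apply Gd.uni
      intro s hs
      rw [mem_powersetCard] at hs
      exact ((Finset.prod_dvd_prod_of_subset _ _ _ hs.1).mul_left _).mul_right _
    refine (((a1.pow _).mul (a2.pow _)).mul (Gd.prod _ _ a3)).mono dvd_rfl ?_
    simp only [Nat.card_Icc]
    omega
  · rw [map_mul, map_mul, map_pow, map_pow, map_prod, hI.ev0, ev_zero_uni (by simp; omega)]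
    rw [Finset.prod_eq_one]
    · simp
    · intro g hg
      rw [mem_Icc] at hg
      rw [map_pow, ev_zero_uni, one_pow]
      rw [powersetCard_nonempty, hP0c]
      have := hg2 g hg.2
      nlinarith
  · intro t
    rw [hnorm]
    exact mul_le_one₀ (mul_le_one₀ (hμ1 t) (by positivity) (hUa1 t)) (norm_nonneg _) (hUb1 t)
  · intro β hβ1 hβ2 hcop
    have hβ0 : 0 < β := by omega
    rcases Nat.lt_or_ge β (Z ^ 3) with hβ3 | hβ3
    · -- small moduli
      refine ⟨Ua, 1, fun t => ?_, ?_⟩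
      · rw [hnorm, mul_one]
        have b1 := hμ1 t
        have b2 := hUb1 t
        have b3 : 0 ≤ ‖ev t Ua‖ ^ 2 := by positivity
        calc _ ≤ 1 * ‖ev t Ua‖ ^ 2 * 1 := by gcongr
          _ = _ := by ring
      · rw [pow_one, cm_sq_uni (fun x _ y _ h => by simpa using h)
          (fun x hx => by rw [mem_range] at hx; omega), card_range]
        have hu' : (2 : ℝ) ≤ u := by exact_mod_cast hu2
        apply num_lemma (a := 1) (b := 90) (Y := (u : ℝ) ^ 8) (by positivity)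
          (one_le_pow₀ (by linarith)) one_ne_zero _ (by positivity) _ (by norm_num)
        · push_cast
          rw [pow_one]
          field_simp
          exact hu'
        · have : β ^ 3 ≤ (u ^ 8) ^ 90 := by
            calc β ^ 3 ≤ (Z ^ 3) ^ 3 := Nat.pow_le_pow_left hβ3.le _
              _ ≤ ((u ^ 80) ^ 3) ^ 3 := Nat.pow_le_pow_left (Nat.pow_le_pow_left hZu'.le _) _
              _ = _ := by generalize u = w; ring
          exact_mod_cast this
    · set g := (Nat.log Z β - 1) / 2 with hg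
      have hl3 : 3 ≤ Nat.log Z β := Nat.le_log_of_pow_le hZ1 hβ3
      have hlZ : Nat.log Z β ≤ Z := by
        have := Nat.log_mono_right (b := Z) hβ2
        rwa [Nat.log_pow hZ1] at this
      have hg1 : 1 ≤ g := by omega
      have hlow : Z ^ (2 * g + 1) ≤ β :=
        (Nat.pow_le_pow_right (by omega) (by omega)).trans (Nat.pow_log_le_self Z hβ0.ne')
      have hup : β ≤ Z ^ (5 * g) :=
        (Nat.lt_pow_succ_log_self hZ1 β).le.trans (Nat.pow_le_pow_right (by omega) (by omega))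
      have hup3 : β ^ 3 ≤ (Z ^ g) ^ 15 := by
        calc β ^ 3 ≤ (Z ^ (5 * g)) ^ 3 := Nat.pow_le_pow_left hup _
          _ = _ := by rw [← pow_mul, ← pow_mul]; congr 1; ring
      have hZg : 0 < Z ^ (2 * g) := by positivity
      rcases Nat.lt_or_ge (24 * m) g with hgm | hgm
      · -- large moduli
        refine ⟨μ, k, fun t => ?_, ?_⟩
        · rw [hnorm]
          have b1 := hUa1 t
          have b2 := hUb1 t
          have b3 : 0 ≤ ‖ev t μ‖ ^ (2 * k) := by positivity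
          calc _ ≤ ‖ev t μ‖ ^ (2 * k) * 1 * 1 := by gcongr
            _ = _ := by ring
        · have b1 := hI.cmle g (by omega) β hcop (by
            rw [pow_succ] at hlow
            nlinarith)
          have b2 := cm_sq_pow_nonneg hβ0 μ k
          apply num_lemma (a := 4) (b := 1200) (Y := (2 : ℝ) ^ (g * k)) (by positivity)
            (one_le_pow₀ (by norm_num)) (by norm_num) _ (by positivity) _ (by norm_num)
          · refine le_trans ?_ (EB_bound hm hgm.le)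
            gcongr
          · have : β ^ 3 ≤ (2 ^ (g * k)) ^ 1200 := by
              calc β ^ 3 ≤ (Z ^ g) ^ 15 := hup3
                _ ≤ ((2 ^ (80 * k)) ^ g) ^ 15 :=
                  Nat.pow_le_pow_left (Nat.pow_le_pow_left h2.le _) _
                _ = _ := by rw [← pow_mul, ← pow_mul, ← pow_mul]; congr 1; ring
            exact_mod_cast this
      · -- intermediate moduli
        refine ⟨Ub g, 1, fun t => ?_, ?_⟩
        · rw [hnorm, mul_one, ← Finset.mul_prod_erase _ _ (mem_Icc.2 ⟨hg1, hgm⟩), map_mul, norm_mul,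
            map_pow, norm_pow]
          have b1 := hUa1 t
          have b2 := hμ1 t
          have b3 : ‖ev t (∏ x ∈ (Icc 1 (24 * m)).erase g, Ub x ^ 2)‖ ≤ 1 := by
            rw [map_prod, norm_prod]
            apply Finset.prod_le_one (fun _ _ => norm_nonneg _)
            intro g _
            rw [map_pow, norm_pow]
            exact pow_le_one₀ (norm_nonneg _) (norm_ev_uni _ _ _)
          calc _ ≤ 1 * 1 * (‖ev t (Ub g)‖ ^ 2 * 1) := by gcongr
            _ = _ := by ring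
        · rw [pow_one, cm_sq_uni, card_powersetCard, hP0c]
          · have b1 := choose_bound hg1 (hg2 g hgm)
            have b2 : (4 : ℝ) * (Z : ℝ) ^ g ≤ (((2 * Z).choose g : ℕ) : ℝ) ^ 2 := by exact_mod_cast b1
            have b3 : (1 : ℝ) ≤ (Z : ℝ) ^ g := one_le_pow₀ (by exact_mod_cast hZ1.le)
            have b4 : (0 : ℝ) < (((2 * Z).choose g : ℕ) : ℝ) := by
              have : 0 < (2 * Z).choose g := Nat.choose_pos (by omega)
              exact_mod_cast this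
            apply num_lemma (a := 2) (b := 15) (Y := (Z : ℝ) ^ g) (by positivity)
              b3 (by norm_num) _ (by positivity) _ (by norm_num)
            · field_simp
              linarith
            · exact_mod_cast hup3
          · intro s hs s' hs' hss
            rw [mem_coe, mem_powersetCard] at hs hs'
            have e1 := Nat.primeFactors_prod (s := s) fun p hp => (hP p (hP0 (hs.1 hp))).1
            have e2 := Nat.primeFactors_prod (s := s') fun p hp => (hP p (hP0 (hs'.1 hp))).1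
            simp only at hss
            rw [← e1, ← e2, hss]
          · intro s hs
            rw [mem_powersetCard] at hs
            have : ∏ p ∈ s, p ≤ (Z ^ 2) ^ g := by
              rw [← hs.2]
              exact Finset.prod_le_pow_card _ _ _ fun p hp => (hP p (hP0 (hs.1 hp))).2.2
            rw [← pow_mul] at this
            rw [pow_succ] at hlow
            nlinarith

/-- the universal covering theorem -/
theorem cover {m Z : ℕ} (hm : 1 ≤ m) (h1 : 2 ^ (40 * 2 ^ m) ≤ Z) (h2 : Z < 2 ^ (80 * 2 ^ m)) :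
    ∃ (M : ℕ) (X : Finset ℕ), 0 < M ∧ M ≤ Z ^ (4809 * Z) ∧
      X.card ≤ 2 * Z ∧ (∀ p ∈ X, p.Prime ∧ 2 * Z < p) ∧
      ∀ A : ℕ, 0 < A → A ≤ Z ^ Z → (∀ p ∈ X, Nat.Coprime A p) → ∀ c : ℤ,
        ∃ s : Multiset ℕ, s.card ≤ 250000 * 2 ^ m ∧ (∀ d ∈ s, d ∣ M) ∧
          (A : ℤ) ∣ (s.sum : ℕ) - c := by
  classical
  obtain ⟨G, MG, X, hMG0, hMG, hfac, hXc, hX, hGd, hG0, hG1, hmain⟩ := exists_G hm h1 h2
  set k := 2 ^ m with hk
  set u := 2 ^ k with hu
  have hk1 : 1 ≤ k := Nat.one_le_two_pow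
  have hku : k + 1 ≤ u := Nat.lt_two_pow_self
  have hu2 : 2 ≤ u := by omega
  have hZu : u ^ 40 ≤ Z := by rw [hu, ← pow_mul, mul_comm]; exact h1
  have hZ0 : 0 < Z := lt_of_lt_of_le (by positivity) hZu
  set w := u ^ 9 with hw
  have hw8 : 8 ≤ w := by
    have : 2 ^ 9 ≤ u ^ 9 := Nat.pow_le_pow_left hu2 _
    omega
  have hwZ : w ^ 4 ≤ Z := by
    rw [hw, ← pow_mul]
    exact (Nat.pow_le_pow_right (by omega) (by norm_num)).trans hZu
  set V := Z ^ Z with hV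
  have hV0 : 0 < V := by positivity
  obtain ⟨L, hL⟩ : ∃ L : ℕ, L = 4800 := ⟨_, rfl⟩
  rw [← hL] at hmain
  choose! H i hHi using hmain
  set Θ : Finset (ℕ × ℕ) := ((Ioo w (V + 1)).biUnion (fun β : ℕ => ({β} : Finset ℕ) ×ˢ range β)).filter
    (fun θ => Nat.Coprime θ.1 θ.2 ∧ ∀ p ∈ X, Nat.Coprime θ.1 p) with hΘ
  have hΘmem : ∀ θ : ℕ × ℕ, θ ∈ Θ ↔ (w < θ.1 ∧ θ.1 ≤ V ∧ θ.2 < θ.1 ∧ Nat.Coprime θ.1 θ.2 ∧
      ∀ p ∈ X, Nat.Coprime θ.1 p) := by
    rintro ⟨β, a⟩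
    simp only [hΘ, mem_filter, mem_biUnion, mem_Ioo, mem_product, mem_singleton, mem_range]
    constructor
    · rintro ⟨⟨b, ⟨hb1, hb2⟩, rfl, hb3⟩, h4, h5⟩
      exact ⟨hb1, by omega, hb3, h4, h5⟩
    · rintro ⟨h1, h2, h3, h4, h5⟩
      exact ⟨⟨β, ⟨h1, by omega⟩, rfl, h3⟩, h4, h5⟩
  obtain ⟨ys, hys, hsum⟩ := exists_multipliers Θ hV0
    (fun θ y => ‖ev (((y + 1 : ℕ) : ℤ) * ((θ.2 : ℝ) / θ.1)) G‖)
    (fun θ => 2 * cm θ.1 (sq (H θ.1) ^ i θ.1)) (fun _ _ => norm_nonneg _)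
    (fun θ hθ => by
      have := cm_sq_pow_nonneg (β := θ.1) (by have := ((hΘmem θ).1 hθ).1; omega) (H θ.1) (i θ.1)
      positivity)
    (fun θ hθ => by
      obtain ⟨a1, a2, a3, a4, a5⟩ := (hΘmem θ).1 hθ
      refine le_trans ?_ (avg_le (by omega) a2 a4 (H θ.1) (i θ.1))
      exact Finset.sum_le_sum fun y _ => (hHi θ.1 a1 a2 a5).1 _)
    L (fun _ => 1) (fun _ => zero_le_one)
  simp only [one_mul] at hsum
  have hbig : ∑ θ ∈ Θ, (2 * cm θ.1 (sq (H θ.1) ^ i θ.1)) ^ L ≤ 1 / 4 := by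
    calc ∑ θ ∈ Θ, (2 * cm θ.1 (sq (H θ.1) ^ i θ.1)) ^ L
        ≤ ∑ θ ∈ Θ, (((θ.1 : ℝ)) ^ 3)⁻¹ := by
          apply Finset.sum_le_sum
          intro θ hθ
          obtain ⟨a1, a2, a3, a4, a5⟩ := (hΘmem θ).1 hθ
          have b1 := (hHi θ.1 a1 a2 a5).2
          have b2 : (0 : ℝ) < (θ.1 : ℝ) ^ 3 := by
            have : 0 < θ.1 := by omega
            positivity
          rw [← one_div, le_div_iff₀ b2]
          exact b1
      _ ≤ ∑ θ ∈ (Ioo w (V + 1)).biUnion (fun β : ℕ => ({β} : Finset ℕ) ×ˢ range β), (((θ.1 : ℝ)) ^ 3)⁻¹ :=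
          Finset.sum_le_sum_of_subset_of_nonneg (filter_subset _ _) fun _ _ _ => by positivity
      _ = ∑ β ∈ Ioo w (V + 1), ((β : ℝ) ^ 2)⁻¹ := by
          rw [Finset.sum_biUnion]
          · apply Finset.sum_congr rfl
            intro β hβ
            have : (β : ℝ) ≠ 0 := by
              rw [mem_Ioo] at hβ
              have : β ≠ 0 := by omega
              exact_mod_cast this
            rw [Finset.sum_product, Finset.sum_singleton]
            simp only [sum_const, card_range, nsmul_eq_mul]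
            field_simp
          · intro a _ b _ hab
            rw [Function.onFun, Finset.disjoint_left]
            intro x hx hx'
            simp only [mem_product, mem_singleton] at hx hx'
            exact hab (hx.1.symm.trans hx'.1)
      _ ≤ 2 / ((w : ℝ) + 1) := sum_Ioo_inv_sq_le w (V + 1)
      _ ≤ 1 / 4 := by
          have : (8 : ℝ) ≤ w := by exact_mod_cast hw8
          rw [div_le_div_iff₀ (by positivity) (by positivity)]
          linarith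
  set W : Al := uni (range Z) (fun x => x + 1) with hW
  set Φ : Al := W * ∏ j : Fin L, dil ((ys j + 1 : ℕ) : ℤ) G with hΦ
  have hnorm : ∀ t, ‖ev t Φ‖ = ‖ev t W‖ * ∏ j : Fin L, ‖ev (((ys j + 1 : ℕ) : ℤ) * t) G‖ := by
    intro t
    rw [hΦ, map_mul, norm_mul, map_prod, norm_prod]
    simp only [ev_dil]
  refine ⟨(∏ j : Fin L, (ys j + 1)) * MG, X, ?_, ?_, hXc, hX, ?_⟩
  · have : 0 < ∏ j : Fin L, (ys j + 1) := Finset.prod_pos fun _ _ => Nat.succ_pos _
    positivity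
  · have a1 : ∏ j : Fin L, (ys j + 1) ≤ V ^ L := by
      have := Finset.prod_le_pow_card (univ : Finset (Fin L)) (fun j => ys j + 1) V
        (fun j _ => hys j)
      rwa [card_univ, Fintype.card_fin] at this
    calc _ ≤ V ^ L * Z ^ (9 * Z) := Nat.mul_le_mul a1 hMG
      _ = _ := by rw [hV, ← pow_mul, ← pow_add, hL]; congr 1; ring
  intro A hA0 hAV hAX c
  have hGΦ : Gd ((∏ j : Fin L, (ys j + 1)) * MG) (250000 * k) Φ := by
    have a1 : Gd ((∏ j : Fin L, (ys j + 1)) * MG) 1 W := by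
      apply Gd.uni
      intro x hx
      rw [mem_range] at hx
      exact ((Nat.dvd_factorial (by omega) (by omega)).trans hfac).mul_left _
    have a2 : ∀ j ∈ (univ : Finset (Fin L)),
        Gd ((∏ j : Fin L, (ys j + 1)) * MG) (52 * k) (dil ((ys j + 1 : ℕ) : ℤ) G) := by
      intro j hj
      exact (hGd.dil _).mono (mul_dvd_mul_right (Finset.dvd_prod_of_mem _ hj) _) le_rfl
    refine (a1.mul (Gd.prod _ _ a2)).mono dvd_rfl ?_
    rw [card_univ, Fintype.card_fin, hL]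
    omega
  have hΦ0 : ev 0 Φ = 1 := by
    rw [hΦ, map_mul, map_prod, ev_zero_uni (nonempty_range_iff.2 hZ0.ne')]
    simp only [ev_dil, mul_zero, hG0, prod_const_one, mul_one]
  have hsmall : ∑ ξ ∈ (range A).erase 0, ‖ev ((ξ : ℝ) / A) Φ‖ < 1 := by
    set φ : ℕ → ℕ × ℕ := fun ξ => (A / Nat.gcd A ξ, ξ / Nat.gcd A ξ) with hφ
    have hφ1 : ∀ ξ : ℕ, (ξ : ℝ) / A = ((φ ξ).2 : ℝ) / (φ ξ).1 := by
      intro ξ
      have g0 : 0 < Nat.gcd A ξ := Nat.gcd_pos_of_pos_left _ hA0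
      have g1 : ((Nat.gcd A ξ : ℕ) : ℝ) ≠ 0 := by exact_mod_cast g0.ne'
      simp only [hφ]
      rw [Nat.cast_div (Nat.gcd_dvd_left _ _) g1, Nat.cast_div (Nat.gcd_dvd_right _ _) g1]
      field_simp
    have hinj : Set.InjOn φ ((range A).erase 0 : Finset ℕ) := by
      intro x _ y _ hxy
      have := hφ1 x
      rw [hxy, ← hφ1 y] at this
      have hA' : (A : ℝ) ≠ 0 := by exact_mod_cast hA0.ne'
      rw [div_left_inj' hA'] at this
      exact_mod_cast this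
    set Θ₀ : Finset (ℕ × ℕ) := (Icc 1 w ×ˢ range w).filter (fun θ => ¬ θ.1 ∣ θ.2) with hΘ₀
    have hsub : ((range A).erase 0).image φ ⊆ Θ₀ ∪ Θ := by
      intro θ hθ
      rw [mem_image] at hθ
      obtain ⟨ξ, hξ, rfl⟩ := hθ
      rw [mem_erase, mem_range] at hξ
      have g0 : 0 < Nat.gcd A ξ := Nat.gcd_pos_of_pos_left _ hA0
      have g1 : ξ / Nat.gcd A ξ < A / Nat.gcd A ξ :=
        Nat.div_lt_div_of_lt_of_dvd (Nat.gcd_dvd_left _ _) hξ.2
      have g2 : 0 < ξ / Nat.gcd A ξ :=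
        Nat.div_pos (Nat.le_of_dvd (by omega) (Nat.gcd_dvd_right _ _)) g0
      have g3 : A / Nat.gcd A ξ ∣ A := Nat.div_dvd_of_dvd (Nat.gcd_dvd_left _ _)
      rw [mem_union]
      by_cases hw' : A / Nat.gcd A ξ ≤ w
      · left
        simp only [hΘ₀, hφ, mem_filter, mem_product, mem_Icc, mem_range]
        refine ⟨⟨⟨by omega, hw'⟩, by omega⟩, fun hd => ?_⟩
        have := Nat.le_of_dvd g2 hd
        omega
      · right
        rw [hΘmem]
        simp only [hφ]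
        refine ⟨by omega, (Nat.le_of_dvd hA0 g3).trans hAV, g1, Nat.coprime_div_gcd_div_gcd g0,
          fun p hp => Nat.Coprime.coprime_dvd_left g3 (hAX p hp)⟩
    have hs0 : ∑ θ ∈ Θ₀, ‖ev ((θ.2 : ℝ) / θ.1) Φ‖ ≤ 1 / 4 := by
      have b1 : ∀ θ ∈ Θ₀, ‖ev ((θ.2 : ℝ) / θ.1) Φ‖ ≤ (w : ℝ) / Z := by
        intro θ hθ
        simp only [hΘ₀, mem_filter, mem_product, mem_Icc, mem_range] at hθ
        rw [hnorm]
        have c1 := norm_ev_uni_range (T := Z) (β := θ.1) (by omega) hθ.2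
        have c2 : ∏ j : Fin L, ‖ev (((ys j + 1 : ℕ) : ℤ) * ((θ.2 : ℝ) / θ.1)) G‖ ≤ 1 :=
          Finset.prod_le_one (fun _ _ => norm_nonneg _) fun _ _ => hG1 _
        have c3 : (θ.1 : ℝ) / Z ≤ (w : ℝ) / Z := by
          have : (θ.1 : ℝ) ≤ w := by exact_mod_cast hθ.1.1.2
          gcongr
        calc _ ≤ (w : ℝ) / Z * 1 := mul_le_mul (c1.trans c3) c2
              (Finset.prod_nonneg fun _ _ => norm_nonneg _) (by positivity)
          _ = _ := mul_one _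
      refine (Finset.sum_le_card_nsmul _ _ _ b1).trans ?_
      have b2 : Θ₀.card ≤ w * w := by
        refine (card_filter_le _ _).trans ?_
        simp
      have b3 : (Θ₀.card : ℝ) ≤ w * w := by exact_mod_cast b2
      have b4 : (w : ℝ) ^ 4 ≤ Z := by exact_mod_cast hwZ
      have b5 : (8 : ℝ) ≤ w := by exact_mod_cast hw8
      have b6 : (0 : ℝ) < Z := by exact_mod_cast hZ0
      rw [nsmul_eq_mul]
      calc (Θ₀.card : ℝ) * (w / Z) ≤ (w * w) * (w / Z) := by gcongr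
        _ = w ^ 3 / Z := by ring
        _ ≤ 1 / 4 := by
          rw [div_le_div_iff₀ b6 (by norm_num)]
          have : (0 : ℝ) ≤ w ^ 3 := by positivity
          nlinarith
    have hs1 : ∑ θ ∈ Θ, ‖ev ((θ.2 : ℝ) / θ.1) Φ‖ ≤ 1 / 4 := by
      refine le_trans (Finset.sum_le_sum fun θ _ => ?_) (hsum.trans hbig)
      rw [hnorm]
      exact mul_le_of_le_one_left (Finset.prod_nonneg fun _ _ => norm_nonneg _) (norm_ev_uni _ _ _)
    calc ∑ ξ ∈ (range A).erase 0, ‖ev ((ξ : ℝ) / A) Φ‖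
        = ∑ θ ∈ ((range A).erase 0).image φ, ‖ev ((θ.2 : ℝ) / θ.1) Φ‖ := by
          rw [Finset.sum_image hinj]
          exact Finset.sum_congr rfl fun ξ _ => by rw [hφ1]
      _ ≤ ∑ θ ∈ Θ₀ ∪ Θ, ‖ev ((θ.2 : ℝ) / θ.1) Φ‖ :=
          Finset.sum_le_sum_of_subset_of_nonneg hsub fun _ _ _ => norm_nonneg _
      _ ≤ ∑ θ ∈ Θ₀, ‖ev ((θ.2 : ℝ) / θ.1) Φ‖ + ∑ θ ∈ Θ, ‖ev ((θ.2 : ℝ) / θ.1) Φ‖ := by
          rw [← Finset.sum_union_inter]
          exact le_add_of_nonneg_right (Finset.sum_nonneg fun _ _ => norm_nonneg _)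
      _ < 1 := by linarith
  obtain ⟨n, hn, hd⟩ := cover_of_small hA0 Φ hΦ0 hsmall c
  obtain ⟨s, a1, a2, rfl⟩ := hGΦ n hn
  exact ⟨s, a1, a2, hd⟩

end Crest.Agent.R19
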