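import Mathlib

set_option autoImplicit false

/-! Elementary manipulations of sums of unit fractions. -/

namespace Crest.Agent.R19

open Finset

/-- `x` is a sum of at most `k` unit fractions (repetitions allowed) -/
def Rep (k : ℕ) (x : ℚ) : Prop :=
  ∃ s : Multiset ℕ, s.card ≤ k ∧ (∀ n ∈ s, 0 < n) ∧ (s.map (fun n : ℕ => (1 : ℚ) / n)).sum = x

lemma Rep.zero (k : ℕ) : Rep k 0 := ⟨0, by simp, by simp, by simp⟩

lemma Rep.mono {k k' : ℕ} {x : ℚ} (h : Rep k x) (hk : k ≤ k') : Rep k' x := by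
  obtain ⟨s, h1, h2, h3⟩ := h
  exact ⟨s, h1.trans hk, h2, h3⟩

lemma Rep.add {k k' : ℕ} {x y : ℚ} (h : Rep k x) (h' : Rep k' y) : Rep (k + k') (x + y) := by
  obtain ⟨s, h1, h2, rfl⟩ := h
  obtain ⟨s', h1', h2', rfl⟩ := h'
  refine ⟨s + s', by rw [Multiset.card_add]; omega, ?_, by simp⟩
  intro d hd
  rw [Multiset.mem_add] at hd
  exact hd.elim (h2 d) (h2' d)

lemma Rep.of_dvd {B d : ℕ} (hB : 0 < B) (hd : d ∣ B) : Rep 1 ((d : ℚ) / B) := by
  obtain ⟨e, rfl⟩ := hd
  have he : 0 < e := Nat.pos_of_mul_pos_left hB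
  have hd : 0 < d := Nat.pos_of_mul_pos_right hB
  refine ⟨{e}, by simp, by simpa using he, ?_⟩
  have : (d : ℚ) ≠ 0 := by exact_mod_cast hd.ne'
  have : (e : ℚ) ≠ 0 := by exact_mod_cast he.ne'
  simp only [Multiset.map_singleton, Multiset.sum_singleton]
  push_cast
  field_simp

lemma Rep.of_divisors {B : ℕ} (hB : 0 < B) (s : Multiset ℕ) (hs : ∀ d ∈ s, d ∣ B) :
    Rep s.card ((s.sum : ℕ) / (B : ℚ)) := by
  induction s using Multiset.induction_on with
  | empty => simpa using Rep.zero 0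
  | cons a s ih =>
    rw [Multiset.sum_cons, Multiset.card_cons, Nat.cast_add, add_div, add_comm s.card]
    exact (Rep.of_dvd hB (hs a (by simp))).add (ih fun d hd => hs d (by simp [hd]))

lemma exists_sum_bound (k : ℕ) : ∀ x : ℚ, ∃ B : ℕ, ∀ s : Multiset ℕ, s.card = k →
    (∀ n ∈ s, 0 < n) → (s.map (fun n : ℕ => (1 : ℚ) / n)).sum = x → s.sum ≤ B := by
  induction k with
  | zero =>
    intro x
    refine ⟨0, fun s hs _ _ => ?_⟩
    rw [Multiset.card_eq_zero] at hs
    simp [hs]
  | succ k ih =>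
    intro x
    choose f hf using ih
    set N := ⌈((k + 1 : ℕ) : ℚ) / x⌉₊ with hN
    refine ⟨N + (range (N + 1)).sup (fun n : ℕ => f (x - 1 / n)), fun s hs hpos hsum => ?_⟩
    have hne : s ≠ 0 := by rintro rfl; simp at hs
    have hx : 0 < x := by
      have h1 : (s.map (fun _ => (0 : ℚ))).sum < (s.map (fun n : ℕ => (1 : ℚ) / n)).sum := by
        apply Multiset.sum_lt_sum_of_nonempty hne
        intro n hn
        have := hpos n hn
        positivity
      rw [hsum] at h1
      simpa using h1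
    have hex : ∃ n ∈ s, n ≤ N := by
      by_contra hcon
      push Not at hcon
      have h1 : (s.map (fun n : ℕ => (1 : ℚ) / n)).sum < (s.map (fun _ => x / (k + 1 : ℕ))).sum := by
        apply Multiset.sum_lt_sum_of_nonempty hne
        intro n hn
        have h2 : ((k + 1 : ℕ) : ℚ) / x < n := by
          have : (N : ℚ) < n := by exact_mod_cast hcon n hn
          exact (Nat.le_ceil _).trans_lt this
        have h3 : (0 : ℚ) < n := by exact_mod_cast hpos n hn
        rw [div_lt_iff₀ hx] at h2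
        rw [div_lt_div_iff₀ h3 (by positivity)]
        linarith
      rw [hsum, Multiset.map_const', Multiset.sum_replicate, hs, nsmul_eq_mul] at h1
      have : ((k + 1 : ℕ) : ℚ) * (x / (k + 1 : ℕ)) = x := by field_simp
      linarith
    obtain ⟨n, hn, hnN⟩ := hex
    obtain ⟨t, rfl⟩ := Multiset.exists_cons_of_mem hn
    rw [Multiset.card_cons] at hs
    rw [Multiset.map_cons, Multiset.sum_cons] at hsum
    have h1 := hf (x - 1 / n) t (by omega) (fun m hm => hpos m (by simp [hm])) (by linarith)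
    have h2 : f (x - 1 / n) ≤ (range (N + 1)).sup (fun n : ℕ => f (x - 1 / n)) :=
      Finset.le_sup (f := fun n : ℕ => f (x - 1 / n)) (mem_range.2 (by omega))
    rw [Multiset.sum_cons]
    omega

/-- Takenouchi's theorem: repetitions can be removed -/
lemma Rep.distinct {k : ℕ} {x : ℚ} (h : Rep k x) (hx : x < 1) :
    ∃ S : Finset ℕ, (∀ n ∈ S, 2 ≤ n) ∧ S.card ≤ k ∧ ∑ n ∈ S, (1 : ℚ) / (n : ℚ) = x := by
  have key : ∀ j : ℕ, ∀ s : Multiset ℕ, s.card = j → (∀ n ∈ s, 0 < n) →
      (s.map (fun n : ℕ => (1 : ℚ) / n)).sum = x →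
      ∃ S : Finset ℕ, (∀ n ∈ S, 2 ≤ n) ∧ S.card ≤ j ∧ ∑ n ∈ S, (1 : ℚ) / (n : ℚ) = x := by
    intro j
    induction j using Nat.strong_induction_on with
    | _ j ihj =>
      obtain ⟨B, hB⟩ := exists_sum_bound j x
      have inner : ∀ r : ℕ, ∀ s : Multiset ℕ, B - s.sum = r → s.card = j → (∀ n ∈ s, 0 < n) →
          (s.map (fun n : ℕ => (1 : ℚ) / n)).sum = x →
          ∃ S : Finset ℕ, (∀ n ∈ S, 2 ≤ n) ∧ S.card ≤ j ∧ ∑ n ∈ S, (1 : ℚ) / (n : ℚ) = x := by
        intro r
        induction r using Nat.strong_induction_on with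
        | _ r ihr =>
          intro s hr hs hpos hsum
          have h2 : ∀ n ∈ s, 2 ≤ n := by
            intro n hn
            have h1 : (1 : ℚ) / n ≤ x := by
              rw [← hsum]
              apply Multiset.single_le_sum
              · intro y hy
                rw [Multiset.mem_map] at hy
                obtain ⟨m, _, rfl⟩ := hy
                positivity
              · exact Multiset.mem_map_of_mem _ hn
            have h3 := hpos n hn
            by_contra hcon
            obtain rfl : n = 1 := by omega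
            norm_num at h1
            linarith
          by_cases hnd : s.Nodup
          · exact ⟨⟨s, hnd⟩, h2, hs.le, hsum⟩
          · rw [Multiset.nodup_iff_ne_cons_cons] at hnd
            push Not at hnd
            obtain ⟨n, t, rfl⟩ := hnd
            have hn2 := h2 n (by simp)
            simp only [Multiset.card_cons] at hs
            simp only [Multiset.map_cons, Multiset.sum_cons] at hsum
            rcases Nat.even_or_odd' n with ⟨c, rfl | rfl⟩
            · have hc : (c : ℚ) ≠ 0 := by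
                have : c ≠ 0 := by omega
                exact_mod_cast this
              obtain ⟨S, a1, a2, a3⟩ := ihj (t.card + 1) (by omega) (c ::ₘ t) (by simp)
                (by
                  intro m hm
                  rw [Multiset.mem_cons] at hm
                  rcases hm with rfl | hm
                  · omega
                  · exact hpos m (by simp [hm]))
                (by
                  simp only [Multiset.map_cons, Multiset.sum_cons]
                  rw [← hsum]; push_cast; field_simp; ring)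
              exact ⟨S, a1, by omega, a3⟩
            · have hc : 1 ≤ c := by omega
              have hpos' : ∀ m ∈ (c + 1) ::ₘ ((2 * c + 1) * (c + 1)) ::ₘ t, 0 < m := by
                intro m hm
                simp only [Multiset.mem_cons] at hm
                rcases hm with rfl | rfl | hm
                · omega
                · positivity
                · exact hpos m (by simp [hm])
              have hsum' : (((c + 1) ::ₘ ((2 * c + 1) * (c + 1)) ::ₘ t).map
                  (fun n : ℕ => (1 : ℚ) / n)).sum = x := by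
                simp only [Multiset.map_cons, Multiset.sum_cons]
                rw [← hsum]; push_cast; field_simp; ring
              have hcard' : ((c + 1) ::ₘ ((2 * c + 1) * (c + 1)) ::ₘ t).card = j := by
                simp only [Multiset.card_cons]; omega
              have hle := hB _ hcard' hpos' hsum'
              refine ihr _ ?_ _ rfl hcard' hpos' hsum'
              simp only [Multiset.sum_cons] at hr hle ⊢
              have : 2 * c + 1 + (2 * c + 1) < c + 1 + (2 * c + 1) * (c + 1) := by nlinarith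
              omega
      exact fun s => inner _ s rfl
  obtain ⟨s, h1, h2, h3⟩ := h
  obtain ⟨S, a1, a2, a3⟩ := key _ s rfl h2 h3
  exact ⟨S, a1, a2.trans h1, a3⟩

lemma exists_avoid (X : Finset ℕ) (N : ℕ) (hc : X.card ≤ N) (hX : ∀ p ∈ X, p.Prime ∧ N < p)
    (a c : ℕ) (hac : Nat.Coprime a c) : ∃ τ ≤ N, ∀ p ∈ X, Nat.Coprime (a * τ + c) p := by
  have h1 : ∀ p ∈ X, ((range (N + 1)).filter (fun τ => p ∣ a * τ + c)).card ≤ 1 := by
    intro p hp
    rw [Finset.card_le_one]
    intro x hx y hy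
    rw [mem_filter, mem_range] at hx hy
    obtain ⟨hpp, hpN⟩ := hX p hp
    have hpa : ¬ p ∣ a := by
      intro h
      have h2 : p ∣ c := (Nat.dvd_add_right (h.mul_right x)).1 hx.2
      exact hpp.one_lt.ne' (Nat.eq_one_of_dvd_coprimes hac h h2)
    have h3 : (p : ℤ) ∣ (a : ℤ) * ((x : ℤ) - y) := by
      have e : (a : ℤ) * ((x : ℤ) - y) = ((a * x + c : ℕ) : ℤ) - ((a * y + c : ℕ) : ℤ) := by
        push_cast; ring
      rw [e]
      exact dvd_sub (Int.natCast_dvd_natCast.2 hx.2) (Int.natCast_dvd_natCast.2 hy.2)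
    have h4 : (p : ℤ) ∣ (x : ℤ) - y := by
      rcases (Nat.prime_iff_prime_int.1 hpp).dvd_or_dvd h3 with h | h
      · exact absurd (Int.natCast_dvd_natCast.1 h) hpa
      · exact h
    have h5 := Int.eq_zero_of_abs_lt_dvd h4 (by rw [abs_lt]; constructor <;> omega)
    omega
  have h2 := Finset.card_biUnion_le_card_mul _ _ _ h1
  have h3 : (X.biUnion fun p => (range (N + 1)).filter (fun τ => p ∣ a * τ + c)).card <
      (range (N + 1)).card := by
    rw [card_range]; omega
  obtain ⟨τ, hτ, hτ'⟩ := Finset.exists_mem_notMem_of_card_lt_card h3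
  refine ⟨τ, by rw [mem_range] at hτ; omega, fun p hp => ?_⟩
  rw [Nat.coprime_comm, (hX p hp).1.coprime_iff_not_dvd]
  intro hd
  exact hτ' (mem_biUnion.2 ⟨p, hp, mem_filter.2 ⟨hτ, hd⟩⟩)

lemma Rep.step {A B D n A' k : ℕ} (hB : 0 < B) (hn : 0 < n) (hD : D ∣ B) (h : A * n = D + A')
    (hR : Rep k ((A' : ℚ) / ((B * n : ℕ) : ℚ))) : Rep (k + 1) ((A : ℚ) / B) := by
  have h1 := hR.add (Rep.of_dvd (B := B * n) (by positivity) (hD.mul_right n))
  have hB' : (B : ℚ) ≠ 0 := by exact_mod_cast hB.ne'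
  have hn' : (n : ℚ) ≠ 0 := by exact_mod_cast hn.ne'
  have h' : (A : ℚ) * n = D + A' := by exact_mod_cast h
  convert h1 using 1
  push_cast
  field_simp
  linarith

/-- the covering property -/
def Cov (M K V : ℕ) (X : Finset ℕ) : Prop :=
  ∀ A : ℕ, 0 < A → A ≤ V → (∀ p ∈ X, Nat.Coprime A p) → ∀ c : ℤ,
    ∃ s : Multiset ℕ, s.card ≤ K ∧ (∀ d ∈ s, d ∣ M) ∧ (A : ℤ) ∣ (s.sum : ℕ) - c

lemma rep_final {M K V N : ℕ} {X : Finset ℕ} (hc : X.card ≤ N) (hX : ∀ p ∈ X, p.Prime ∧ N < p)
    (hcov : Cov M K V X) {A B : ℕ} (hA : A * (N + 1) ≤ V) (hB : 0 < B) (hM : M ∣ B) :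
    Rep (K + 2) ((A : ℚ) / B) := by
  rcases Nat.eq_zero_or_pos A with rfl | hA0
  · simpa using Rep.zero _
  obtain ⟨A₀, rfl⟩ : ∃ A₀, A = A₀ + 1 := ⟨A - 1, by omega⟩
  obtain ⟨τ, hτ, hcop⟩ := exists_avoid X N hc hX (A₀ + 1) A₀ (by simp)
  apply Rep.step (D := 1) (n := τ + 1) (A' := (A₀ + 1) * τ + A₀) hB (by omega) (one_dvd _)
    (by ring)
  set A' := (A₀ + 1) * τ + A₀ with hA'
  rcases Nat.eq_zero_or_pos A' with h0 | hA'0
  · rw [h0]; simpa using Rep.zero _
  have hle : A' ≤ V := by
    have : (A₀ + 1) * τ ≤ (A₀ + 1) * N := Nat.mul_le_mul_left _ hτ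
    rw [mul_add] at hA
    omega
  obtain ⟨s, h1, h2, h3⟩ := hcov A' hA'0 hle hcop (-1)
  have h4 : A' ∣ (1 ::ₘ s).sum := by
    rw [← Int.natCast_dvd_natCast, Multiset.sum_cons]
    convert h3 using 1
    push_cast; ring
  obtain ⟨n', hn'⟩ := h4
  have hn0 : 0 < n' := by
    rcases Nat.eq_zero_or_pos n' with rfl | h
    · simp at hn'
    · exact h
  have h5 := Rep.of_divisors (B := B * (τ + 1) * n') (by positivity) (1 ::ₘ s) (by
    intro d hd
    rw [Multiset.mem_cons] at hd
    rcases hd with rfl | hd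
    · exact one_dvd _
    · exact (((h2 d hd).trans hM).mul_right _).mul_right _)
  rw [hn', Multiset.card_cons] at h5
  have hn'' : (n' : ℚ) ≠ 0 := by exact_mod_cast hn0.ne'
  convert h5.mono (Nat.add_le_add_right h1 1) using 1
  rw [Nat.cast_mul A' n', Nat.cast_mul _ n', mul_div_mul_right _ _ hn'']

lemma rep_peel {M M₂ K K' V Θ H : ℕ} {X : Finset ℕ} (hM : 0 < M) (hH : 0 < H)
    (hcov : Cov M K V X) (hΘ : K * M ≤ Θ)
    (hF : ∀ A B : ℕ, A ≤ Θ → 0 < B → M₂ ∣ B → Rep K' ((A : ℚ) / B))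
    {B : ℕ} (hB : 0 < B) (hMB : M ∣ B) (hMB₂ : M₂ ∣ B) (ns : List ℕ) :
    (∀ n ∈ ns, H ≤ n ∧ n ≤ V ∧ ∀ p ∈ X, Nat.Coprime n p) → ∀ A : ℕ, A ≤ Θ * H ^ ns.length →
      Rep (ns.length * K + K') ((A : ℚ) / ((B * ns.prod : ℕ) : ℚ)) := by
  induction ns with
  | nil => intro _ A hA; simpa using hF A B (by simpa using hA) hB hMB₂
  | cons n ns ih =>
    intro hns A hA
    have hpos : 0 < (n :: ns).prod := by
      apply List.prod_pos
      intro m hm
      have := (hns m hm).1
      omega
    by_cases hAΘ : A ≤ Θ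
    · exact (hF A _ hAΘ (by positivity) (hMB₂.mul_right _)).mono (by omega)
    obtain ⟨hn1, hn2, hn3⟩ := hns n (by simp)
    obtain ⟨s, h1, h2, h3⟩ := hcov n (by omega) hn2 hn3 A
    have h4 : s.sum ≤ A := by
      have a1 : s.sum ≤ s.card • M :=
        Multiset.sum_le_card_nsmul _ _ fun d hd => Nat.le_of_dvd hM (h2 d hd)
      rw [smul_eq_mul] at a1
      have a2 : s.card * M ≤ K * M := Nat.mul_le_mul_right _ h1
      omega
    have h5 : n ∣ A - s.sum := by
      rw [← Int.natCast_dvd_natCast, Nat.cast_sub h4, ← dvd_neg, neg_sub]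
      exact h3
    obtain ⟨A', hA'⟩ := h5
    have h6 : A' ≤ Θ * H ^ ns.length := by
      apply Nat.le_of_mul_le_mul_left _ hH
      calc H * A' ≤ n * A' := Nat.mul_le_mul_right _ hn1
        _ ≤ A := by omega
        _ ≤ Θ * H ^ (ns.length + 1) := hA
        _ = _ := by ring
    have h7 := ih (fun m hm => hns m (by simp [hm])) A' h6
    have h8 := (Rep.of_divisors (B := B * (n :: ns).prod) (by positivity) s
      (fun d hd => ((h2 d hd).trans hMB).mul_right _)).mono h1
    have h9 : (A : ℚ) = (s.sum : ℕ) + n * A' := by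
      have : A = s.sum + n * A' := by omega
      exact_mod_cast this
    have hB' : (B : ℚ) ≠ 0 := by exact_mod_cast hB.ne'
    have hn' : (n : ℚ) ≠ 0 := by
      have : n ≠ 0 := by omega
      exact_mod_cast this
    have hP : ((ns.prod : ℕ) : ℚ) ≠ 0 := by
      rw [List.prod_cons] at hpos
      exact_mod_cast (Nat.pos_of_mul_pos_left hpos).ne'
    convert h8.add h7 using 1
    · simp only [List.length_cons]; ring
    · rw [h9, List.prod_cons]
      simp only [Nat.cast_mul]
      field_simp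

lemma exists_free {D N : ℕ} {X : Finset ℕ} (hc : X.card ≤ N) (hX : ∀ p ∈ X, p.Prime ∧ N < p)
    (t : ℕ) : ∀ A B : ℕ, 0 < A → 0 < B → D ∣ B → ∃ (A' : ℕ) (ns : List ℕ), ns.length = t ∧
      A' ≤ A * (N + 1) ^ t ∧
      (∀ n ∈ ns, D ≤ n * (A * (N + 1) ^ t) ∧ n ≤ D + N + 1 ∧ ∀ p ∈ X, Nat.Coprime n p) ∧
      ∀ k, Rep k ((A' : ℚ) / ((B * ns.prod : ℕ) : ℚ)) → Rep (k + t) ((A : ℚ) / B) := by
  induction t with
  | zero => intro A B _ _ _; exact ⟨A, [], rfl, by simp, by simp, by simp⟩
  | succ t ih =>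
    intro A B hA hB hD
    obtain ⟨τ, hτ, hcop⟩ := exists_avoid X N hc hX 1 (D / A + 1) (by simp)
    obtain ⟨n, hn⟩ : ∃ n, n = 1 * τ + (D / A + 1) := ⟨_, rfl⟩
    rw [← hn] at hcop
    have e1 := Nat.div_add_mod D A
    have e2 := Nat.mod_lt D hA
    have e3 : A * n = A * τ + A * (D / A) + A := by rw [hn]; ring
    have e4 : A * τ ≤ A * N := Nat.mul_le_mul_left _ hτ
    have hn0 : 0 < n := by rw [hn]; positivity
    obtain ⟨A', ns, h1, h2, h3, h4⟩ := ih (A * n - D) (B * n) (by omega) (by positivity)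
      (hD.mul_right _)
    have h5 : (A * n - D) * (N + 1) ^ t ≤ A * (N + 1) ^ (t + 1) := by
      rw [pow_succ', ← mul_assoc]
      apply Nat.mul_le_mul_right
      rw [mul_add A N]; omega
    refine ⟨A', n :: ns, by simp [h1], h2.trans h5, ?_, ?_⟩
    · intro m hm
      rw [List.mem_cons] at hm
      rcases hm with rfl | hm
      · refine ⟨?_, ?_, hcop⟩
        · have : A ≤ A * (N + 1) ^ (t + 1) := Nat.le_mul_of_pos_right _ (by positivity)
          calc D ≤ m * A := by rw [mul_comm]; omega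
            _ ≤ _ := Nat.mul_le_mul_left _ this
        · have := Nat.div_le_self D A
          omega
      · exact ⟨(h3 m hm).1.trans (Nat.mul_le_mul_left _ h5), (h3 m hm).2⟩
    · intro k hk
      rw [List.prod_cons, ← mul_assoc] at hk
      rw [← add_assoc]
      exact Rep.step hB hn0 hD (by omega) (h4 k hk)

lemma exists_greedy {a Θ : ℕ} (j : ℕ) : ∀ ρ A B : ℕ, 0 < A → A ≤ a → 0 < ρ → a * ρ ≤ B →
    B ≤ Θ ^ 2 → Θ ≤ ρ ^ 2 ^ j → ∃ A' B' : ℕ, 0 < A' ∧ A' ≤ a ∧ Θ ≤ B' ∧ B' ≤ Θ ^ 2 ∧ 0 < B' ∧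
      ∀ k, Rep k ((A' : ℚ) / B') → Rep (k + j) ((A : ℚ) / B) := by
  induction j with
  | zero =>
    intro ρ A B hA ha hρ hB hB' hΘ
    have : ρ ≤ a * ρ := Nat.le_mul_of_pos_left _ (by omega)
    exact ⟨A, B, hA, ha, by simp at hΘ; omega, hB', by omega, fun k hk => hk⟩
  | succ j ih =>
    intro ρ A B hA ha hρ hB hB' hΘ
    have hB0 : 0 < B := lt_of_lt_of_le (Nat.mul_pos (by omega) hρ) hB
    by_cases h : Θ ≤ B
    · exact ⟨A, B, hA, ha, h, hB', hB0, fun k hk => hk.mono (by omega)⟩
    set n := B / A + 1 with hn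
    have e1 := Nat.div_add_mod B A
    have e2 := Nat.mod_lt B hA
    have e3 : A * n = A * (B / A) + A := by rw [hn]; ring
    have e4 : ρ ≤ n := by
      have : A * ρ ≤ a * ρ := Nat.mul_le_mul_right _ ha
      have : A * ρ ≤ A * n := by omega
      exact Nat.le_of_mul_le_mul_left this hA
    have e5 : n ≤ Θ := by
      have := Nat.div_le_self B A
      omega
    obtain ⟨A', B', h1, h2, h3, h4, h5, h6⟩ := ih (ρ ^ 2) (A * n - B) (B * n) (by omega) (by omega)
      (by positivity) (by rw [pow_two, ← mul_assoc]; exact Nat.mul_le_mul hB e4)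
      (by rw [pow_two]; exact Nat.mul_le_mul (by omega) e5)
      (by rw [← pow_mul, ← pow_succ']; exact hΘ)
    refine ⟨A', B', h1, h2, h3, h4, h5, fun k hk => ?_⟩
    rw [← add_assoc]
    exact Rep.step hB0 (by omega) dvd_rfl (by omega) (h6 k hk)

end Crest.Agent.R19
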