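import Crest.Agent.R19.Fourier

set_option autoImplicit false

/-! Additive energy of products of well chosen pairs of primes. -/

namespace Crest.Agent.R19

open Finset

attribute [-simp] LaurentPolynomial.single_eq_C_mul_T

/-- `i`-fold additive energy -/
noncomputable def N0 (μ : Al) (i : ℕ) : ℝ := (sq μ ^ i).coeff 0

/-- square mass on the nonzero multiples of `a` -/
noncomputable def eP (F : Al) (a : ℤ) : ℝ :=
  ∑ n ∈ F.coeff.support, if n ≠ 0 ∧ a ∣ n then F.coeff n ^ 2 else 0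

lemma eP_nonneg (F : Al) (a : ℤ) : 0 ≤ eP F a :=
  Finset.sum_nonneg fun n _ => by split_ifs <;> positivity

lemma eP_neg (F : Al) (a : ℤ) : eP F (-a) = eP F a := by
  simp only [eP, neg_dvd]

lemma sum_sq_le_eP (G : Al) (a : ℤ) (S : Finset ℤ) (hS : ∀ n ∈ S, n ≠ 0 ∧ a ∣ n) :
    ∑ n ∈ S, G.coeff n ^ 2 ≤ eP G a := by
  rw [eP, ← Finset.sum_filter]
  rw [← Finset.sum_filter_of_ne (s := S) (p := fun n => n ∈ G.coeff.support)]
  · apply Finset.sum_le_sum_of_subset_of_nonneg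
    · intro n hn
      rw [mem_filter] at hn ⊢
      exact ⟨hn.2, hS n hn.1⟩
    · intro n _ _; positivity
  · intro n _ hn
    rw [Finsupp.mem_support_iff]
    intro h; apply hn; rw [h]; simp

lemma coeff_zero_dil_mul (a : ℤ) (F H : Al) :
    (dil a F * H).coeff 0 = ∑ n ∈ F.coeff.support, F.coeff n * H.coeff (-(a * n)) := by
  rw [coeff_zero_mul]
  have := Finsupp.sum_mapDomain_index (f := fun n => a * n) (s := F.coeff)
    (h := fun n c => c * H.coeff (-n)) (by simp) (by intros; ring)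
  rw [dil_coeff]
  exact this

lemma cross_le {a b : ℤ} (ha : a ≠ 0) (hb : b ≠ 0) (hab : IsCoprime b a) (F G : Al) :
    (dil a F * dil b G).coeff 0 ≤ F.coeff 0 * G.coeff 0 + (eP F b + eP G a) / 2 := by
  rw [coeff_zero_dil_mul]
  have h1 : ∀ n ∈ F.coeff.support, F.coeff n * (dil b G).coeff (-(a * n)) ≤
      (if n = 0 then F.coeff 0 * G.coeff 0 else 0) +
      ((if n ≠ 0 ∧ b ∣ n then F.coeff n ^ 2 else 0) +
       (if n ≠ 0 ∧ b ∣ n then G.coeff (-(a * (n / b))) ^ 2 else 0)) / 2 := by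
    intro n _
    by_cases h0 : n = 0
    · subst h0
      simp [dil_coeff_zero hb]
    · by_cases hd : b ∣ n
      · obtain ⟨w, rfl⟩ := hd
        have e1 : -(a * (b * w)) = b * (-(a * w)) := by ring
        have e2 : b * w / b = w := Int.mul_ediv_cancel_left _ hb
        rw [e1, dil_coeff_mul hb, e2, if_neg h0, if_pos ⟨h0, Dvd.intro _ rfl⟩,
          if_pos ⟨h0, Dvd.intro _ rfl⟩]
        nlinarith [sq_nonneg (F.coeff (b * w) - G.coeff (-(a * w)))]
      · have : ¬ b ∣ -(a * n) := by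
          rw [dvd_neg]; exact fun h => hd (hab.dvd_of_dvd_mul_left h)
        rw [dil_coeff_of_not_dvd _ this]
        simp [h0, hd]
  refine (Finset.sum_le_sum h1).trans ?_
  rw [Finset.sum_add_distrib, ← Finset.sum_div, Finset.sum_add_distrib]
  have h2 : ∑ n ∈ F.coeff.support, (if n = 0 then F.coeff 0 * G.coeff 0 else 0) =
      F.coeff 0 * G.coeff 0 := by
    rw [Finset.sum_ite_eq']
    split_ifs with h
    · rfl
    · rw [Finsupp.notMem_support_iff.1 h, zero_mul]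
  have h3 : ∑ n ∈ F.coeff.support,
      (if n ≠ 0 ∧ b ∣ n then G.coeff (-(a * (n / b))) ^ 2 else 0) ≤ eP G a := by
    rw [← Finset.sum_filter]
    have hinj : Set.InjOn (fun n : ℤ => -(a * (n / b)))
        (F.coeff.support.filter (fun n => n ≠ 0 ∧ b ∣ n) : Finset ℤ) := by
      intro x hx y hy hxy
      simp only [coe_filter, Set.mem_ofPred_eq] at hx hy
      obtain ⟨u, rfl⟩ := hx.2.2
      obtain ⟨v, rfl⟩ := hy.2.2
      simp only [Int.mul_ediv_cancel_left _ hb, neg_inj] at hxy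
      rw [mul_left_cancel₀ ha hxy]
    rw [← Finset.sum_image (f := fun n => G.coeff n ^ 2) hinj]
    apply sum_sq_le_eP
    intro n hn
    rw [mem_image] at hn
    obtain ⟨x, hx, rfl⟩ := hn
    rw [mem_filter] at hx
    obtain ⟨u, rfl⟩ := hx.2.2
    rw [Int.mul_ediv_cancel_left _ hb]
    refine ⟨?_, (Dvd.intro _ rfl : a ∣ a * u).neg_right⟩
    have : u ≠ 0 := fun h => hx.2.1 (by rw [h, mul_zero])
    simp [ha, this]
  rw [h2]
  have h4 : ∑ n ∈ F.coeff.support, (if n ≠ 0 ∧ b ∣ n then F.coeff n ^ 2 else 0) = eP F b := rfl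
  rw [h4]
  linarith

/-- support bound -/
def Bd (F : Al) (B : ℕ) : Prop := ∀ n ∈ F.coeff.support, |n| ≤ (B : ℤ)

lemma Bd.mono {F : Al} {B B' : ℕ} (h : Bd F B) (hB : B ≤ B') : Bd F B' :=
  fun n hn => (h n hn).trans (by exact_mod_cast hB)

lemma Bd.mul {F G : Al} {B B' : ℕ} (h : Bd F B) (h' : Bd G B') : Bd (F * G) (B + B') := by
  intro n hn
  obtain ⟨u, hu, v, hv, rfl⟩ := mem_support_mul hn
  have := h u hu
  have := h' v hv
  have := abs_add_le u v
  push_cast; linarith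

lemma Bd.dil {F : Al} {B : ℕ} (h : Bd F B) (a : ℤ) : Bd (dil a F) (a.natAbs * B) := by
  intro n hn
  obtain ⟨u, hu, rfl⟩ := mem_support_dil hn
  rw [abs_mul]
  push_cast
  exact mul_le_mul_of_nonneg_left (h u hu) (abs_nonneg _)

lemma Bd.one : Bd 1 0 := by
  intro n hn
  have := AddMonoidAlgebra.support_coeff_one_subset hn
  rw [Finset.mem_zero] at this
  simp [this]

lemma Bd.pow {F : Al} {B : ℕ} (h : Bd F B) (i : ℕ) : Bd (F ^ i) (i * B) := by
  induction i with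
  | zero => simpa using Bd.one
  | succ i ih => rw [pow_succ, add_mul, one_mul]; exact ih.mul h

lemma Bd.sq {F : Al} {B : ℕ} (h : Bd F B) : Bd (sq F) (2 * B) := by
  have := h.mul (h.dil (-1))
  simpa [two_mul, R19.sq] using this

lemma card_primes_dvd_le {Z ω : ℕ} (hZ : 2 ≤ Z) (P : Finset ℕ)
    (hP : ∀ p ∈ P, p.Prime ∧ Z ≤ p) {n : ℤ} (hn : n ≠ 0) (hb : |n| ≤ ((Z ^ ω : ℕ) : ℤ)) :
    (P.filter (fun p : ℕ => (p : ℤ) ∣ n)).card ≤ ω := by
  set T := P.filter (fun p : ℕ => (p : ℤ) ∣ n) with hT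
  have h1 : ∏ p ∈ T, p ∣ n.natAbs := by
    apply Finset.prod_primes_dvd
    · intro p hp; exact (hP p (mem_filter.1 hp).1).1.prime
    · intro p hp; exact Int.natCast_dvd.1 (mem_filter.1 hp).2
  have h2 : Z ^ T.card ≤ ∏ p ∈ T, p :=
    Finset.pow_card_le_prod _ _ _ fun p hp => (hP p (mem_filter.1 hp).1).2
  have h3 : n.natAbs ≤ Z ^ ω := by
    rw [← Int.natCast_natAbs] at hb
    exact_mod_cast hb
  have h4 := Nat.le_of_dvd (Int.natAbs_pos.2 hn) h1
  exact (Nat.pow_le_pow_iff_right (by omega)).1 (h2.trans (h4.trans h3))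

lemma sum_eP_le {Z ω : ℕ} (hZ : 2 ≤ Z) (P : Finset ℕ)
    (hP : ∀ p ∈ P, p.Prime ∧ Z ≤ p) {F : Al} (hF : Bd F (Z ^ ω)) :
    ∑ p ∈ P, eP F p ≤ ω * (sq F).coeff 0 := by
  simp only [eP]
  rw [Finset.sum_comm, sq_coeff_zero, Finset.mul_sum]
  apply Finset.sum_le_sum
  intro n hn
  by_cases h0 : n = 0
  · simp only [h0, ne_eq, not_true_eq_false, false_and, if_false, sum_const_zero]
    positivity
  · simp only [ne_eq, h0, not_false_eq_true, true_and]
    rw [← Finset.sum_filter, Finset.sum_const, nsmul_eq_mul]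
    have := card_primes_dvd_le hZ P hP h0 (hF n hn)
    have h' : ((P.filter (fun p : ℕ => (p : ℤ) ∣ n)).card : ℝ) ≤ ω := by exact_mod_cast this
    exact mul_le_mul_of_nonneg_right h' (sq_nonneg _)

lemma card_bad_le (P : Finset ℕ) (e : ℕ → ℝ) (he : ∀ p, 0 ≤ e p) (ω K : ℕ) (S : ℝ) (hS : 0 ≤ S)
    (h : ∑ p ∈ P, e p ≤ ω * S) : (P.filter (fun p => S < K * e p)).card ≤ K * ω := by
  set T := P.filter (fun p => S < K * e p) with hT
  rcases T.eq_empty_or_nonempty with h0 | hne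
  · simp [h0]
  have h1 : ∑ _p ∈ T, S < ∑ p ∈ T, K * e p :=
    Finset.sum_lt_sum_of_nonempty hne fun p hp => (mem_filter.1 hp).2
  have h2 : ∑ p ∈ T, K * e p ≤ K * (ω * S) := by
    rw [← Finset.mul_sum]
    apply mul_le_mul_of_nonneg_left _ (Nat.cast_nonneg _)
    exact (Finset.sum_le_sum_of_subset_of_nonneg (filter_subset _ _) fun p _ _ => he p).trans h
  rw [Finset.sum_const, nsmul_eq_mul] at h1
  have h3 : (T.card : ℝ) * S < (K * ω) * S := by linarith
  have h4 : (T.card : ℝ) < K * ω := lt_of_mul_lt_mul_right h3 hS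
  exact_mod_cast h4.le

/-- one step of the construction -/
noncomputable def stp (p p' : ℕ) (μ : Al) : Al := (1 / 2 : ℝ) • (dil p μ + dil p' μ)

lemma ev_stp (t : ℝ) (p p' : ℕ) (μ : Al) :
    ev t (stp p p' μ) = (ev t (dil p μ) + ev t (dil p' μ)) / 2 := by
  rw [stp, map_smul, map_add]
  simp only [Complex.real_smul]
  push_cast; ring

lemma norm_ev_stp (t : ℝ) (p p' : ℕ) (μ : Al) :
    ‖ev t (stp p p' μ)‖ ≤ (‖ev t (dil p μ)‖ + ‖ev t (dil p' μ)‖) / 2 := by
  rw [ev_stp, norm_div]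
  have := norm_add_le (ev t (dil p μ)) (ev t (dil p' μ))
  simp only [Complex.norm_ofNat]
  linarith

lemma pointwise_ineq {a b : ℝ} (ha : 0 ≤ a) (hb : 0 ≤ b) (i : ℕ) :
    ((a + b) / 2) ^ (2 * i) ≤ (9 / 25) ^ i * (a ^ (2 * i) + b ^ (2 * i)) + 3 ^ i * (a * b) ^ i := by
  have hA : 0 ≤ a ^ (2 * i) := by positivity
  have hB : 0 ≤ b ^ (2 * i) := by positivity
  have hC : 0 ≤ (3 : ℝ) ^ i * (a * b) ^ i := by positivity
  have hD : 0 ≤ ((9 : ℝ) / 25) ^ i := by positivity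
  by_cases h1 : a ≤ b / 5
  · have : ((a + b) / 2) ^ (2 * i) ≤ (9 / 25) ^ i * b ^ (2 * i) := by
      rw [pow_mul, pow_mul, ← mul_pow]
      apply pow_le_pow_left₀ (by positivity)
      nlinarith
    nlinarith
  · by_cases h2 : b ≤ a / 5
    · have : ((a + b) / 2) ^ (2 * i) ≤ (9 / 25) ^ i * a ^ (2 * i) := by
        rw [pow_mul, pow_mul, ← mul_pow]
        apply pow_le_pow_left₀ (by positivity)
        nlinarith
      nlinarith
    · have : ((a + b) / 2) ^ (2 * i) ≤ 3 ^ i * (a * b) ^ i := by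
        rw [pow_mul, ← mul_pow]
        apply pow_le_pow_left₀ (by positivity)
        push Not at h1 h2
        nlinarith
      nlinarith

lemma convex_ineq {a b : ℝ} (ha : 0 ≤ a) (hb : 0 ≤ b) (i : ℕ) :
    ((a + b) / 2) ^ i ≤ (a ^ i + b ^ i) / 2 := by
  have := add_pow_le ha hb i
  rcases i with _ | i
  · simp
  · rw [div_pow, div_le_div_iff₀ (by positivity) (by positivity)]
    simp only [Nat.add_sub_cancel] at this
    rw [pow_succ (2 : ℝ)]
    nlinarith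

lemma N0_dil {a : ℤ} (ha : a ≠ 0) (μ : Al) (i : ℕ) : N0 (dil a μ) i = N0 μ i := by
  rw [N0, ← dil_sq, ← map_pow, dil_coeff_zero ha, N0]

lemma re_smul_ev (t c : ℝ) (F : Al) : (ev t (c • F)).re = c * (ev t F).re := by
  rw [map_smul]; simp

lemma N0_stp_even {p p' : ℕ} (hp : p.Prime) (hp' : p'.Prime) (hne : p ≠ p') (μ : Al) (i : ℕ) :
    N0 (stp p p' μ) (2 * i) ≤ 2 * (9 / 25) ^ (2 * i) * N0 μ (2 * i) +
      3 ^ (2 * i) * (N0 μ i ^ 2 + (eP (sq μ ^ i) p' + eP (sq μ ^ i) p) / 2) := by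
  have hp0 : (p : ℤ) ≠ 0 := by exact_mod_cast hp.ne_zero
  have hp0' : (p' : ℤ) ≠ 0 := by exact_mod_cast hp'.ne_zero
  have hcop : IsCoprime (p' : ℤ) (p : ℤ) :=
    Nat.isCoprime_iff_coprime.2 ((Nat.coprime_primes hp' hp).2 hne.symm)
  have h1 : N0 (stp p p' μ) (2 * i) ≤
      (((9 / 25 : ℝ) ^ (2 * i)) • (sq (dil p μ) ^ (2 * i) + sq (dil p' μ) ^ (2 * i)) +
        ((3 : ℝ) ^ (2 * i)) • (sq (dil p μ) ^ i * sq (dil p' μ) ^ i)).coeff 0 := by
    apply coeff_zero_mono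
    intro t
    rw [map_add, Complex.add_re, re_smul_ev, re_smul_ev, map_add, map_mul, ev_sq_pow, ev_sq_pow,
      ev_sq_pow, ev_sq_pow, ev_sq_pow, ← Complex.ofReal_add, ← Complex.ofReal_mul]
    simp only [Complex.ofReal_re]
    refine (pow_le_pow_left₀ (norm_nonneg _) (norm_ev_stp t p p' μ) _).trans ?_
    rw [← mul_pow]
    exact pointwise_ineq (norm_nonneg _) (norm_nonneg _) (2 * i)
  have h2 := cross_le hp0 hp0' hcop (sq μ ^ i) (sq μ ^ i)
  rw [map_pow, map_pow, dil_sq, dil_sq] at h2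
  have h3 := N0_dil hp0 μ (2 * i)
  have h4 := N0_dil hp0' μ (2 * i)
  simp only [AddMonoidAlgebra.coeff_add, AddMonoidAlgebra.coeff_smul, Finsupp.add_apply,
    Finsupp.smul_apply, smul_eq_mul] at h1
  simp only [N0] at *
  rw [h3, h4] at h1
  have h5 := mul_le_mul_of_nonneg_left h2 (show (0 : ℝ) ≤ 3 ^ (2 * i) by positivity)
  nlinarith

lemma N0_stp_one {p p' : ℕ} (hp : p.Prime) (hp' : p'.Prime) (hne : p ≠ p') (μ : Al)
    (h0 : μ.coeff 0 = 0) :
    N0 (stp p p' μ) 1 ≤ N0 μ 1 / 2 + (eP μ p' + eP μ p) / 4 := by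
  have hp0 : (p : ℤ) ≠ 0 := by exact_mod_cast hp.ne_zero
  have hp0' : (p' : ℤ) ≠ 0 := by exact_mod_cast hp'.ne_zero
  have hcop : IsCoprime (p' : ℤ) (p : ℤ) :=
    Nat.isCoprime_iff_coprime.2 ((Nat.coprime_primes hp' hp).2 hne.symm)
  have h1 : sq (stp p p' μ) = (1 / 4 : ℝ) • (sq (dil p μ) + sq (dil p' μ) +
      dil p μ * dil (-p') μ + dil p' μ * dil (-p) μ) := by
    simp only [sq, stp, map_smul, map_add, dil_dil, smul_mul_smul_comm, neg_mul, one_mul]
    congr 1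
    · norm_num
    · ring
  have h2 := cross_le hp0 (neg_ne_zero.2 hp0') hcop.neg_left μ μ
  have h3 := cross_le hp0' (neg_ne_zero.2 hp0) hcop.symm.neg_left μ μ
  rw [eP_neg, h0] at h2 h3
  have h4 := N0_dil hp0 μ 1
  have h5 := N0_dil hp0' μ 1
  simp only [N0, pow_one] at *
  rw [h1]
  simp only [AddMonoidAlgebra.coeff_add, AddMonoidAlgebra.coeff_smul, Finsupp.add_apply,
    Finsupp.smul_apply, smul_eq_mul]
  rw [h4, h5]
  linarith

lemma cm_stp_le {β p p' : ℕ} (hβ : 0 < β) (hp : Nat.Coprime β p) (hp' : Nat.Coprime β p')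
    (μ : Al) (i : ℕ) : cm β (sq (stp p p' μ) ^ i) ≤ cm β (sq μ ^ i) := by
  have h1 : cm β (sq (stp p p' μ) ^ i) ≤
      cm β ((1 / 2 : ℝ) • (sq (dil p μ) ^ i + sq (dil p' μ) ^ i)) := by
    apply cm_mono hβ
    intro t
    rw [re_smul_ev, map_add, ev_sq_pow, ev_sq_pow, ev_sq_pow, ← Complex.ofReal_add]
    simp only [Complex.ofReal_re]
    refine (pow_le_pow_left₀ (norm_nonneg _) (norm_ev_stp t p p' μ) _).trans ?_
    have := convex_ineq (norm_nonneg (ev t (dil p μ))) (norm_nonneg (ev t (dil p' μ))) (2 * i)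
    linarith
  rw [map_smul, map_add, ← dil_sq, ← dil_sq, ← map_pow, ← map_pow,
    cm_dil (Nat.isCoprime_iff_coprime.2 hp), cm_dil (Nat.isCoprime_iff_coprime.2 hp')] at h1
  simp only [smul_eq_mul] at h1
  linarith

end Crest.Agent.R19
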