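import Mathlib

set_option autoImplicit false

/-! Finite Fourier analysis for finitely supported real functions on the integers. -/

namespace Crest.Agent.R19

open Finset

attribute [-simp] LaurentPolynomial.single_eq_C_mul_T

/-- finitely supported real functions on `ℤ` with convolution -/
abbrev Al := AddMonoidAlgebra ℝ ℤ

/-- `e(t) = exp(2 π i t)` -/
noncomputable def ee (t : ℝ) : ℂ := Complex.exp (2 * Real.pi * Complex.I * t)

lemma ee_add (s t : ℝ) : ee (s + t) = ee s * ee t := by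
  simp only [ee, ← Complex.exp_add]; congr 1; push_cast; ring

lemma ee_zero : ee 0 = 1 := by simp [ee]

lemma norm_ee (t : ℝ) : ‖ee t‖ = 1 := by
  have : (2 * Real.pi * Complex.I * t : ℂ) = ((2 * Real.pi * t : ℝ) : ℂ) * Complex.I := by
    push_cast; ring
  rw [ee, this, Complex.norm_exp_ofReal_mul_I]

lemma ee_neg (t : ℝ) : ee (-t) = (starRingEnd ℂ) (ee t) := by
  rw [ee, ee, ← Complex.exp_conj]
  congr 1
  simp only [map_mul, Complex.conj_ofReal, Complex.conj_I, map_ofNat]
  push_cast; ring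

lemma ee_nat_mul (n : ℕ) (t : ℝ) : ee (n * t) = ee t ^ n := by
  induction n with
  | zero => simp [ee_zero]
  | succ n ih => rw [pow_succ, ← ih, ← ee_add]; congr 1; push_cast; ring

lemma ee_div_eq_one_iff {β : ℕ} (hβ : 0 < β) (a : ℤ) : ee (a / β) = 1 ↔ (β : ℤ) ∣ a := by
  rw [ee, Complex.exp_eq_one_iff]
  have hβ' : (β : ℂ) ≠ 0 := by exact_mod_cast hβ.ne'
  have hpi : (2 * Real.pi * Complex.I : ℂ) ≠ 0 := by
    simp [Real.pi_ne_zero, Complex.I_ne_zero]
  constructor
  · rintro ⟨n, hn⟩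
    refine ⟨n, ?_⟩
    have h1 : ((a : ℂ) / β) = n := by
      apply mul_left_cancel₀ hpi
      rw [mul_comm _ (n : ℂ), ← hn]; push_cast; ring
    rw [div_eq_iff hβ'] at h1
    have : (a : ℂ) = ((β * n : ℤ) : ℂ) := by rw [h1]; push_cast; ring
    exact_mod_cast this
  · rintro ⟨n, rfl⟩
    refine ⟨n, ?_⟩
    push_cast
    field_simp

/-- orthogonality -/
lemma sum_ee {β N : ℕ} (hβ : 0 < β) (hN : β ∣ N) (s : ℕ) (a : ℤ) :
    ∑ ξ ∈ range N, ee (a * (((ξ + s : ℕ) : ℝ) / β)) = if (β : ℤ) ∣ a then (N : ℂ) else 0 := by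
  have h1 : ∀ ξ : ℕ, ee (a * ((ξ : ℝ) / β)) = ee (a / β) ^ ξ := by
    intro ξ; rw [← ee_nat_mul]; congr 1; ring
  simp only [h1]
  split_ifs with h
  · rw [(ee_div_eq_one_iff hβ a).2 h]; simp
  · have hne : ee (a / β) ≠ 1 := fun h' => h ((ee_div_eq_one_iff hβ a).1 h')
    simp only [pow_add]
    rw [← Finset.sum_mul, geom_sum_eq hne]
    have : ee (a / β) ^ N = 1 := by
      obtain ⟨c, rfl⟩ := hN
      rw [← ee_nat_mul]
      have hβ' : (β : ℝ) ≠ 0 := by exact_mod_cast hβ.ne'
      have : ((β * c : ℕ) : ℝ) * ((a : ℝ) / β) = ((β * (c * a) : ℤ) : ℝ) / β := by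
        push_cast; field_simp
      rw [this, ee_div_eq_one_iff hβ]
      exact Dvd.intro _ rfl
    rw [this]; simp

/-- the character `n ↦ e(n t)` -/
noncomputable def chr (t : ℝ) : Multiplicative ℤ →* ℂ where
  toFun n := ee ((n.toAdd : ℤ) * t)
  map_one' := by simp [ee_zero]
  map_mul' a b := by rw [← ee_add]; congr 1; simp [add_mul]

/-- Fourier transform -/
noncomputable def ev (t : ℝ) : Al →ₐ[ℝ] ℂ := AddMonoidAlgebra.lift ℝ ℂ ℤ (chr t)

lemma ev_single (t : ℝ) (n : ℤ) (c : ℝ) :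
    ev t (AddMonoidAlgebra.single n c) = c * ee (n * t) := by
  simp [ev, chr]

lemma ev_apply (t : ℝ) (F : Al) :
    ev t F = ∑ n ∈ F.coeff.support, (F.coeff n : ℂ) * ee (n * t) := by
  simp [ev, AddMonoidAlgebra.lift_apply, Finsupp.sum, chr]

/-- dilation -/
noncomputable def dil (a : ℤ) : Al →ₐ[ℝ] Al :=
  AddMonoidAlgebra.mapDomainAlgHom ℝ ℝ (AddMonoidHom.mulLeft a)

lemma dil_single (a n : ℤ) (c : ℝ) :
    dil a (AddMonoidAlgebra.single n c) = AddMonoidAlgebra.single (a * n) c := by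
  simp [dil]

lemma dil_coeff (a : ℤ) (F : Al) : (dil a F).coeff = F.coeff.mapDomain (fun n => a * n) := by
  rfl

lemma ev_dil (t : ℝ) (a : ℤ) (F : Al) : ev t (dil a F) = ev (a * t) F := by
  induction F using AddMonoidAlgebra.induction_linear with
  | zero => simp
  | add f g hf hg => simp [hf, hg]
  | single n c => rw [dil_single, ev_single, ev_single]; congr 2; push_cast; ring

lemma dil_dil (a b : ℤ) (F : Al) : dil a (dil b F) = dil (a * b) F := by
  induction F using AddMonoidAlgebra.induction_linear with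
  | zero => simp
  | add f g hf hg => simp [hf, hg]
  | single n c => rw [dil_single, dil_single, dil_single, mul_assoc]

lemma dil_one (F : Al) : dil 1 F = F := by
  induction F using AddMonoidAlgebra.induction_linear with
  | zero => simp
  | add f g hf hg => simp [hf, hg]
  | single n c => rw [dil_single, one_mul]

lemma ev_neg (t : ℝ) (F : Al) : ev (-t) F = (starRingEnd ℂ) (ev t F) := by
  induction F using AddMonoidAlgebra.induction_linear with
  | zero => simp
  | add f g hf hg => simp [hf, hg]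
  | single n c =>
    rw [ev_single, ev_single, mul_neg, ee_neg]; simp [Complex.conj_ofReal]

lemma dil_coeff_mul {a : ℤ} (ha : a ≠ 0) (F : Al) (n : ℤ) : (dil a F).coeff (a * n) = F.coeff n := by
  rw [dil_coeff]
  exact Finsupp.mapDomain_apply (fun x y h => mul_left_cancel₀ ha h) _ _

lemma dil_coeff_zero {a : ℤ} (ha : a ≠ 0) (F : Al) : (dil a F).coeff 0 = F.coeff 0 := by
  simpa using dil_coeff_mul ha F 0

lemma dil_coeff_of_not_dvd {a : ℤ} (F : Al) {n : ℤ} (h : ¬ a ∣ n) : (dil a F).coeff n = 0 := by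
  rw [dil_coeff]
  apply Finsupp.mapDomain_of_notMem_range
  rintro ⟨m, rfl⟩
  exact h (Dvd.intro _ rfl)

lemma mem_support_dil {a : ℤ} {F : Al} {n : ℤ} (h : n ∈ (dil a F).coeff.support) :
    ∃ m ∈ F.coeff.support, n = a * m := by
  rw [dil_coeff] at h
  have := Finsupp.mapDomain_support h
  simp only [mem_image] at this
  obtain ⟨m, hm, rfl⟩ := this
  exact ⟨m, hm, rfl⟩

lemma mem_support_mul {F G : Al} {n : ℤ} (h : n ∈ (F * G).coeff.support) :
    ∃ u ∈ F.coeff.support, ∃ v ∈ G.coeff.support, n = u + v := by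
  have := AddMonoidAlgebra.support_coeff_mul_subset F G h
  rw [Finset.mem_add] at this
  obtain ⟨u, hu, v, hv, rfl⟩ := this
  exact ⟨u, hu, v, hv, rfl⟩

/-- total mass on multiples of `β` -/
noncomputable def cm (β : ℕ) : Al →ₗ[ℝ] ℝ :=
  (Finsupp.linearCombination ℝ (fun n : ℤ => if (β : ℤ) ∣ n then (1 : ℝ) else 0)).comp
    (AddMonoidAlgebra.coeffLinearEquiv ℝ).toLinearMap

lemma cm_single (β : ℕ) (n : ℤ) (c : ℝ) :
    cm β (AddMonoidAlgebra.single n c) = if (β : ℤ) ∣ n then c else 0 := by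
  simp [cm]

lemma cm_apply (β : ℕ) (F : Al) :
    cm β F = ∑ n ∈ F.coeff.support, if (β : ℤ) ∣ n then F.coeff n else 0 := by
  simp [cm, Finsupp.linearCombination_apply, Finsupp.sum]

lemma sum_ev {β N : ℕ} (hβ : 0 < β) (hN : β ∣ N) (s : ℕ) (F : Al) :
    ∑ ξ ∈ range N, ev (((ξ + s : ℕ) : ℝ) / β) F = (N : ℂ) * (cm β F : ℝ) := by
  induction F using AddMonoidAlgebra.induction_linear with
  | zero => simp
  | add f g hf hg =>
    simp only [map_add, sum_add_distrib, hf, hg]; push_cast; ring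
  | single n c =>
    simp only [ev_single, cm_single]
    rw [← Finset.mul_sum, sum_ee hβ hN]
    split_ifs <;> simp [mul_comm]

lemma cm_dil {β : ℕ} {a : ℤ} (h : IsCoprime (β : ℤ) a) (F : Al) : cm β (dil a F) = cm β F := by
  induction F using AddMonoidAlgebra.induction_linear with
  | zero => simp
  | add f g hf hg => simp [hf, hg]
  | single n c =>
    rw [dil_single, cm_single, cm_single]
    have : (β : ℤ) ∣ a * n ↔ (β : ℤ) ∣ n :=
      ⟨fun h' => h.dvd_of_dvd_mul_left h', fun h' => h'.mul_left _⟩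
    simp only [this]

lemma cm_eq_coeff_zero {β : ℕ} {F : Al} (h : ∀ n ∈ F.coeff.support, |n| < β) :
    cm β F = F.coeff 0 := by
  rw [cm_apply, Finset.sum_eq_single 0]
  · simp
  · intro n hn hn0
    rw [if_neg]
    intro hd
    exact hn0 (Int.eq_zero_of_abs_lt_dvd hd (h n hn))
  · intro h0
    simpa using h0

lemma cm_mono {β : ℕ} (hβ : 0 < β) {F G : Al} (h : ∀ t, (ev t F).re ≤ (ev t G).re) :
    cm β F ≤ cm β G := by
  have h1 := congrArg Complex.re (sum_ev hβ (dvd_refl β) 0 F)
  have h2 := congrArg Complex.re (sum_ev hβ (dvd_refl β) 0 G)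
  simp only [Complex.re_sum, Complex.mul_re, Complex.natCast_re, Complex.ofReal_re,
    Complex.natCast_im, Complex.ofReal_im, mul_zero, sub_zero] at h1 h2
  have h3 : (β : ℝ) * cm β F ≤ β * cm β G := by
    rw [← h1, ← h2]
    exact Finset.sum_le_sum fun ξ _ => h _
  have hβ' : (0 : ℝ) < β := by exact_mod_cast hβ
  exact le_of_mul_le_mul_left h3 hβ'

lemma coeff_zero_mono {F G : Al} (h : ∀ t, (ev t F).re ≤ (ev t G).re) :
    F.coeff 0 ≤ G.coeff 0 := by
  set q : ℕ := (F.coeff.support ∪ G.coeff.support).sup Int.natAbs + 1 with hq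
  have hb : ∀ n ∈ F.coeff.support ∪ G.coeff.support, |n| < (q : ℤ) := by
    intro n hn
    have : n.natAbs ≤ (F.coeff.support ∪ G.coeff.support).sup Int.natAbs := Finset.le_sup hn
    rw [← Int.natCast_natAbs]
    have : n.natAbs < q := by omega
    exact_mod_cast this
  rw [← cm_eq_coeff_zero (β := q) (fun n hn => hb n (mem_union_left _ hn)),
    ← cm_eq_coeff_zero (β := q) (fun n hn => hb n (mem_union_right _ hn))]
  exact cm_mono (by omega) h

/-- `F * F^*` -/
noncomputable def sq (F : Al) : Al := F * dil (-1) F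

lemma ev_sq (t : ℝ) (F : Al) : ev t (sq F) = ((‖ev t F‖ ^ 2 : ℝ) : ℂ) := by
  rw [sq, map_mul, ev_dil]
  have : ((-1 : ℤ) : ℝ) * t = -t := by simp
  rw [this, ev_neg, Complex.mul_conj, Complex.normSq_eq_norm_sq]

lemma ev_sq_pow (t : ℝ) (F : Al) (i : ℕ) : ev t (sq F ^ i) = ((‖ev t F‖ ^ (2 * i) : ℝ) : ℂ) := by
  rw [map_pow, ev_sq, pow_mul]; push_cast; ring

lemma dil_sq (a : ℤ) (F : Al) : dil a (sq F) = sq (dil a F) := by
  simp only [sq, map_mul, dil_dil, mul_comm]

lemma coeff_zero_mul (F G : Al) :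
    (F * G).coeff 0 = ∑ n ∈ F.coeff.support, F.coeff n * G.coeff (-n) := by
  induction F using AddMonoidAlgebra.induction_linear with
  | zero => simp
  | add f g hf hg =>
    rw [add_mul, AddMonoidAlgebra.coeff_add, Finsupp.add_apply, hf, hg]
    have key : ∀ (h : Al) (S : Finset ℤ), h.coeff.support ⊆ S →
        ∑ n ∈ h.coeff.support, h.coeff n * G.coeff (-n) = ∑ n ∈ S, h.coeff n * G.coeff (-n) := by
      intro h S hS
      apply Finset.sum_subset hS
      intro x _ hx
      rw [Finsupp.notMem_support_iff.1 hx, zero_mul]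
    rw [key f (f.coeff.support ∪ g.coeff.support) subset_union_left,
      key g (f.coeff.support ∪ g.coeff.support) subset_union_right,
      key (f + g) (f.coeff.support ∪ g.coeff.support) Finsupp.support_add, ← sum_add_distrib]
    apply Finset.sum_congr rfl
    intro n _
    rw [AddMonoidAlgebra.coeff_add, Finsupp.add_apply]; ring
  | single n c =>
    rw [AddMonoidAlgebra.coeff_single_mul_eq_mul_coeff (m₂ := -n)]
    · by_cases hc : c = 0
      · simp [hc]
      · rw [AddMonoidAlgebra.coeff_single, Finsupp.support_single _ hc]; simp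
    · intro m' _
      constructor <;> intro h <;> omega

lemma dil_neg_one_coeff (F : Al) (n : ℤ) : (dil (-1) F).coeff n = F.coeff (-n) := by
  have := dil_coeff_mul (a := -1) (by norm_num) F (-n)
  simpa using this

lemma sq_coeff_zero (F : Al) : (sq F).coeff 0 = ∑ n ∈ F.coeff.support, F.coeff n ^ 2 := by
  rw [sq, coeff_zero_mul]
  apply Finset.sum_congr rfl
  intro n _
  rw [dil_neg_one_coeff, neg_neg, pow_two]

end Crest.Agent.R19
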