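import Crest.Agent.R19.Cover
import Crest.Agent.R19.Egypt

set_option autoImplicit false

/-! Assembly: every `a / b` is a sum of `O(log log b)` unit fractions. -/

namespace Crest.Agent.R19

open Finset

lemma cover' {Z : ℕ} (hZ : 2 ^ 80 ≤ Z) :
    ∃ (M : ℕ) (X : Finset ℕ), 0 < M ∧ M ≤ Z ^ (4809 * Z) ∧
      X.card ≤ 2 * Z ∧ (∀ p ∈ X, p.Prime ∧ 2 * Z < p) ∧ Cov M (6250 * Nat.log 2 Z) (Z ^ Z) X := by
  set l := Nat.log 2 Z with hl
  have hl80 : 80 ≤ l := Nat.le_log_of_pow_le (by norm_num) hZ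
  set m := Nat.log 2 (l / 40) with hm
  have hm1 : 1 ≤ m := Nat.le_log_of_pow_le (by norm_num) (by omega)
  have h1 : 2 ^ m ≤ l / 40 := Nat.pow_log_le_self 2 (by omega)
  have h2 : l / 40 < 2 ^ (m + 1) := Nat.lt_pow_succ_log_self (by norm_num) _
  rw [pow_succ] at h2
  have h3 : 2 ^ l ≤ Z := Nat.pow_log_le_self 2 (by omega)
  have h4 : Z < 2 ^ (l + 1) := Nat.lt_pow_succ_log_self (by norm_num) _
  obtain ⟨M, X, a1, a2, a3, a4, a5⟩ := cover (m := m) (Z := Z) hm1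
    ((Nat.pow_le_pow_right (by norm_num) (by omega)).trans h3)
    (h4.trans_le (Nat.pow_le_pow_right (by norm_num) (by omega)))
  refine ⟨M, X, a1, a2, a3, a4, fun A b1 b2 b3 c => ?_⟩
  obtain ⟨s, c1, c2, c3⟩ := a5 A b1 b2 b3 c
  exact ⟨s, c1.trans (by omega), c2, c3⟩

lemma Cov.mono {M K V K' V' : ℕ} {X : Finset ℕ} (h : Cov M K V X) (hK : K ≤ K') (hV : V' ≤ V) :
    Cov M K' V' X := by
  intro A b1 b2 b3 c
  obtain ⟨s, c1, c2, c3⟩ := h A b1 (b2.trans hV) b3 c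
  exact ⟨s, c1.trans hK, c2, c3⟩

lemma cover'' {Z c : ℕ} (hZ : 2 ^ 80 ≤ Z) (hc : 1 ≤ c) (hcZ : c ≤ Z) :
    ∃ (M : ℕ) (X : Finset ℕ), 0 < M ∧ M ≤ (Z ^ Z) ^ (9618 * c) ∧
      X.card ≤ 2 * (c * Z) ∧ (∀ p ∈ X, p.Prime ∧ 2 * (c * Z) < p) ∧
      Cov M (18750 * Nat.log 2 Z) ((Z ^ Z) ^ c) X := by
  have h1 : Z ≤ c * Z := Nat.le_mul_of_pos_left _ hc
  have h2 : c * Z ≤ Z ^ 2 := by rw [pow_two]; exact Nat.mul_le_mul_right _ hcZ
  obtain ⟨M, X, a1, a2, a3, a4, a5⟩ := cover' (hZ.trans h1)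
  refine ⟨M, X, a1, ?_, a3, a4, a5.mono ?_ ?_⟩
  · refine a2.trans ((Nat.pow_le_pow_left h2 _).trans (le_of_eq ?_))
    rw [← pow_mul, ← pow_mul]; congr 1; ring
  · have hl80 : 80 ≤ Nat.log 2 Z := Nat.le_log_of_pow_le (by norm_num) hZ
    have h4 : Z < 2 ^ (Nat.log 2 Z + 1) := Nat.lt_pow_succ_log_self (by norm_num) _
    have h5 : c * Z < 2 ^ (3 * Nat.log 2 Z + 1) := by
      calc c * Z ≤ Z ^ 2 := h2
        _ < (2 ^ (Nat.log 2 Z + 1)) ^ 2 := Nat.pow_lt_pow_left h4 (by norm_num)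
        _ = 2 ^ ((Nat.log 2 Z + 1) * 2) := by rw [← pow_mul]
        _ ≤ _ := Nat.pow_le_pow_right (by norm_num) (by omega)
    have h6 := Nat.log_lt_of_lt_pow (by omega) h5
    omega
  · rw [← pow_mul, mul_comm Z c]
    exact Nat.pow_le_pow_left h1 _

lemma rep_main {Z a b t : ℕ} (hZ : 2 ^ 80 ≤ Z) (ht : t = 647560705) (ha : 1 ≤ a) (hab : a < b)
    (hb : b ≤ Z ^ Z) : Rep (20000 * (t + 1) * Nat.log 2 Z) ((a : ℚ) / b) := by
  set l := Nat.log 2 Z with hl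
  have hl80 : 80 ≤ l := Nat.le_log_of_pow_le (by norm_num) hZ
  have hlZ : Z < 2 ^ (l + 1) := Nat.lt_pow_succ_log_self (by norm_num) _
  have hlZ' : 2 ^ l ≤ Z := Nat.pow_log_le_self 2 (by omega)
  obtain ⟨M₁, X₁, a1, a2, a3, a4, a5⟩ := cover'' (c := 7) hZ (by norm_num) (by omega)
  obtain ⟨M₂, X₂, b1, b2, b3, b4, b5⟩ := cover'' (c := 67328) hZ (by norm_num) (by omega)
  rw [← hl] at a5 b5
  have hE2 : Z ^ 2 ≤ Z ^ Z := Nat.pow_le_pow_right (by omega) (by omega)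
  have hEt : (2 * (7 * Z) + 1) ^ t ≤ Z ^ Z := by
    calc (2 * (7 * Z) + 1) ^ t ≤ (Z ^ 2) ^ t := Nat.pow_le_pow_left (by nlinarith) _
      _ = Z ^ (2 * t) := by rw [← pow_mul]
      _ ≤ _ := Nat.pow_le_pow_right (by omega) (by omega)
  have hE3 : (Z ^ Z) ^ 3 ≤ 2 ^ 2 ^ (2 * l + 4) := by
    have c1 : Z ≤ 2 ^ Z := Nat.lt_two_pow_self.le
    have c2 : Z * Z * 3 ≤ 2 ^ (2 * l + 4) := by
      have : 2 ^ (2 * l + 4) = 2 ^ (l + 1) * 2 ^ (l + 1) * 4 := by ring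
      rw [this]
      exact Nat.mul_le_mul (Nat.mul_le_mul hlZ.le hlZ.le) (by norm_num)
    calc (Z ^ Z) ^ 3 ≤ ((2 ^ Z) ^ Z) ^ 3 := Nat.pow_le_pow_left (Nat.pow_le_pow_left c1 _) _
      _ = 2 ^ (Z * Z * 3) := by rw [← pow_mul, ← pow_mul, mul_assoc]
      _ ≤ _ := Nat.pow_le_pow_right (by norm_num) c2
  have hlE : 18750 * l ≤ Z ^ Z := by
    have : l < 2 ^ l := Nat.lt_two_pow_self
    refine le_trans ?_ hE2
    nlinarith
  have hNE : 2 * (67328 * Z) + 1 ≤ Z ^ Z := le_trans (by nlinarith) hE2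
  clear_value l
  generalize Z ^ Z = E at *
  have hE0 : 0 < E := by omega
  have hE1 : 2 ≤ E := by omega
  -- first step
  have e1 := Nat.div_add_mod b a
  have e2 := Nat.mod_lt b (show 0 < a by omega)
  have e3 : 1 ≤ b / a := (Nat.le_div_iff_mul_le (by omega)).2 (by omega)
  have e4 := Nat.div_le_self b a
  have e5 : a * (b / a + 1) = a * (b / a) + a := by ring
  obtain ⟨A₁, D, c1, c2, c3, c4, c5, c6⟩ := exists_greedy (a := a) (Θ := E ^ 3) (2 * l + 4) 2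
    (a * (b / a + 1) - b) (b * (b / a + 1)) (by omega) (by omega) (by norm_num)
    (Nat.mul_le_mul hab.le (by omega))
    (by
      have : E + 1 ≤ E ^ 3 := by nlinarith [Nat.mul_le_mul hE1 hE1]
      rw [pow_two]
      exact Nat.mul_le_mul (by omega) (by omega)) hE3
  obtain ⟨A₂, ns, d1, d2, d3, d4⟩ := exists_free (D := D) a3 a4 t A₁ D c1 c5 dvd_rfl
  have hA₂ : A₁ * (2 * (7 * Z) + 1) ^ t ≤ E ^ 2 := by
    rw [pow_two]; exact Nat.mul_le_mul (by omega) hEt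
  have hfin : ∀ A B : ℕ, A ≤ E ^ 67327 → 0 < B → M₂ ∣ B → Rep (18750 * l + 2) ((A : ℚ) / B) := by
    intro A B hA hB hM
    refine rep_final b3 b4 b5 ?_ hB hM
    rw [pow_succ E 67327]
    exact Nat.mul_le_mul hA hNE
  have hpeel := rep_peel (H := E) (Θ := E ^ 67327) a1 hE0 a5
    (by rw [pow_succ' E 67326]; exact Nat.mul_le_mul hlE a2) hfin
    (B := D * (M₁ * M₂)) (by positivity) ((Dvd.intro _ rfl).mul_left _)
    ((Dvd.intro_left _ rfl).mul_left _) ns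
    (by
      intro n hn
      obtain ⟨f1, f2, f3⟩ := d3 n hn
      refine ⟨?_, ?_, f3⟩
      · apply Nat.le_of_mul_le_mul_right _ (show 0 < E ^ 2 by positivity)
        calc E * E ^ 2 = E ^ 3 := by ring
          _ ≤ D := c3
          _ ≤ _ := f1
          _ ≤ _ := Nat.mul_le_mul_left _ hA₂
      · have g1 : E ≤ (E ^ 3) ^ 2 := by
          rw [← pow_mul]; exact Nat.le_self_pow (by norm_num) _
        have g2 : E ^ 7 = E * (E ^ 3) ^ 2 := by ring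
        have g3 : 2 * (E ^ 3) ^ 2 ≤ E * (E ^ 3) ^ 2 := Nat.mul_le_mul_right _ hE1
        omega)
    (A₂ * (M₁ * M₂))
    (by
      rw [d1, ← pow_add]
      calc A₂ * (M₁ * M₂) ≤ E ^ 2 * (E ^ (9618 * 7) * E ^ (9618 * 67328)) :=
            Nat.mul_le_mul (d2.trans hA₂) (Nat.mul_le_mul a2 b2)
        _ = E ^ (2 + (9618 * 7 + 9618 * 67328)) := by rw [← pow_add, ← pow_add]
        _ ≤ _ := Nat.pow_le_pow_right hE0 (by omega))
  have hM : ((M₁ * M₂ : ℕ) : ℚ) ≠ 0 := by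
    have : M₁ * M₂ ≠ 0 := by positivity
    exact_mod_cast this
  have hq : ((A₂ * (M₁ * M₂) : ℕ) : ℚ) / ((D * (M₁ * M₂) * ns.prod : ℕ) : ℚ) =
      (A₂ : ℚ) / ((D * ns.prod : ℕ) : ℚ) := by
    rw [mul_right_comm D, Nat.cast_mul A₂, Nat.cast_mul (D * ns.prod), mul_div_mul_right _ _ hM]
  rw [hq, d1] at hpeel
  have h7 := Rep.step (A := a) (B := b) (D := b) (n := b / a + 1) (by omega) (by omega) dvd_rfl
    (by omega) (c6 _ (d4 _ hpeel))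
  refine h7.mono ?_
  have : t ≤ t * l := Nat.le_mul_of_pos_right _ (by omega)
  have e : 20000 * (t + 1) * l = 20000 * (t * l) + 20000 * l := by ring
  have e' : t * (18750 * l) = 18750 * (t * l) := by ring
  omega

theorem egyptian : ∃ C : ℝ, ∃ b₀ : ℕ, ∀ (a b : ℕ), b₀ ≤ b → 1 ≤ a → a < b →
      ∃ S : Finset ℕ, (∀ n ∈ S, 2 ≤ n) ∧ (S.card : ℝ) ≤ C * Real.log (Real.log (b : ℝ)) ∧
        ∑ n ∈ S, (1 : ℚ) / (n : ℚ) = (a : ℚ) / (b : ℚ) := by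
  obtain ⟨Z₀, hZ₀⟩ : ∃ Z₀ : ℕ, 2 ^ 80 ≤ Z₀ := ⟨_, le_rfl⟩
  obtain ⟨t, ht⟩ : ∃ t : ℕ, t = 647560705 := ⟨_, rfl⟩
  refine ⟨((20000 * (t + 1) : ℕ) : ℝ) * 2, Z₀ ^ Z₀ + 1, fun a b hb ha hab => ?_⟩
  have hex : ∃ Z : ℕ, b ≤ Z ^ Z := ⟨b, Nat.le_self_pow (by omega) _⟩
  classical
  set Z := Nat.find hex with hZ
  have h1 : b ≤ Z ^ Z := Nat.find_spec hex
  have h2 : Z₀ < Z := by
    by_contra hcon
    push Not at hcon
    have : Z ^ Z ≤ Z₀ ^ Z₀ :=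
      (Nat.pow_le_pow_left hcon _).trans (Nat.pow_le_pow_right (by omega) hcon)
    omega
  have h3 : (Z - 1) ^ (Z - 1) < b := by
    have := Nat.find_min hex (m := Z - 1) (by omega)
    omega
  have hx : (a : ℚ) / b < 1 := by
    rw [div_lt_one (by exact_mod_cast (by omega : 0 < b))]
    exact_mod_cast hab
  obtain ⟨S, s1, s2, s3⟩ := (rep_main (by omega : 2 ^ 80 ≤ Z) ht ha hab h1).distinct hx
  refine ⟨S, s1, ?_, s3⟩
  set l := Nat.log 2 Z with hl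
  have hl80 : 80 ≤ l := Nat.le_log_of_pow_le (by norm_num) (by omega)
  have hlZ' : 2 ^ l ≤ Z := Nat.pow_log_le_self 2 (by omega)
  obtain ⟨Y, hY⟩ : ∃ Y, Z = Y + 1 := ⟨Z - 1, by omega⟩
  obtain ⟨j, hj⟩ : ∃ j, l = j + 1 := ⟨l - 1, by omega⟩
  have h4 : Y ^ Y < b := by rw [hY] at h3; simpa using h3
  have h5 : 2 ^ j ≤ Y := by
    rw [hj, pow_succ] at hlZ'
    have : 1 ≤ 2 ^ j := Nat.one_le_two_pow
    omega
  have h6 : (Y : ℝ) ≤ Real.log b := by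
    rw [Real.le_log_iff_exp_le (by exact_mod_cast (by omega : 0 < b))]
    have g1 : Real.exp Y ≤ (Y : ℝ) ^ Y := by
      rw [← mul_one (Y : ℝ), Real.exp_nat_mul, mul_one]
      apply pow_le_pow_left₀ (Real.exp_pos _).le
      have : (3 : ℝ) ≤ Y := by exact_mod_cast (by omega : 3 ≤ Y)
      linarith [Real.exp_one_lt_d9]
    have g2 : ((Y ^ Y : ℕ) : ℝ) ≤ b := by exact_mod_cast h4.le
    push_cast at g2
    linarith
  have h7 : (j : ℝ) * Real.log 2 ≤ Real.log (Real.log b) := by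
    rw [← Real.log_pow]
    apply Real.log_le_log (by positivity)
    have : ((2 ^ j : ℕ) : ℝ) ≤ Y := by exact_mod_cast h5
    push_cast at this
    linarith
  have h8 : (l : ℝ) ≤ 2 * Real.log (Real.log b) := by
    have g1 : (79 : ℝ) ≤ j := by exact_mod_cast (by omega : 79 ≤ j)
    have g2 := Real.log_two_gt_d9
    rw [hj]; push_cast
    nlinarith
  have h9 : (S.card : ℝ) ≤ ((20000 * (t + 1) : ℕ) : ℝ) * l := by exact_mod_cast s2
  calc (S.card : ℝ) ≤ _ := h9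
    _ ≤ ((20000 * (t + 1) : ℕ) : ℝ) * (2 * Real.log (Real.log b)) :=
        mul_le_mul_of_nonneg_left h8 (Nat.cast_nonneg _)
    _ = _ := by ring

end Crest.Agent.R19
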