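import Crest.Agent.R19.Build

set_option autoImplicit false

/-! Uniform distributions, representability predicate, averaging lemmas. -/

namespace Crest.Agent.R19

open Finset

attribute [-simp] LaurentPolynomial.single_eq_C_mul_T

/-- uniform distribution on the values of `f` on `S` -/
noncomputable def uni {ι : Type} (S : Finset ι) (f : ι → ℕ) : Al :=
  ((S.card : ℝ)⁻¹) • ∑ x ∈ S, AddMonoidAlgebra.single (f x : ℤ) (1 : ℝ)

lemma ev_uni {ι : Type} (S : Finset ι) (f : ι → ℕ) (t : ℝ) :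
    ev t (uni S f) = (S.card : ℂ)⁻¹ * ∑ x ∈ S, ee ((f x : ℤ) * t) := by
  rw [uni, map_smul, map_sum]
  simp [ev_single]

lemma ev_zero_uni {ι : Type} {S : Finset ι} (hS : S.Nonempty) (f : ι → ℕ) :
    ev 0 (uni S f) = 1 := by
  have : (S.card : ℂ) ≠ 0 := by exact_mod_cast hS.card_pos.ne'
  rw [ev_uni]; simp [ee_zero, this]

lemma norm_ev_uni {ι : Type} (S : Finset ι) (f : ι → ℕ) (t : ℝ) : ‖ev t (uni S f)‖ ≤ 1 := by
  rw [ev_uni, norm_mul, norm_inv, Complex.norm_natCast]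
  have h1 : ‖∑ x ∈ S, ee ((f x : ℤ) * t)‖ ≤ S.card := by
    refine (norm_sum_le _ _).trans ?_
    simp [norm_ee]
  rcases S.eq_empty_or_nonempty with rfl | hS
  · simp
  · have : (0 : ℝ) < S.card := by exact_mod_cast hS.card_pos
    rw [inv_mul_le_iff₀ this]; linarith

lemma mem_support_uni {ι : Type} {S : Finset ι} {f : ι → ℕ} {n : ℤ}
    (hn : n ∈ (uni S f).coeff.support) : ∃ x ∈ S, n = f x := by
  classical
  rw [uni, AddMonoidAlgebra.coeff_smul] at hn
  have h1 := Finsupp.support_smul hn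
  rw [AddMonoidAlgebra.coeff_sum] at h1
  have h2 := Finsupp.support_finsetSum h1
  rw [mem_biUnion] at h2
  obtain ⟨x, hx, hx'⟩ := h2
  rw [AddMonoidAlgebra.coeff_single, Finsupp.support_single _ one_ne_zero, mem_singleton] at hx'
  exact ⟨x, hx, hx'⟩

lemma cm_sq_uni {ι : Type} {S : Finset ι} {f : ι → ℕ} (hinj : Set.InjOn f S) {β : ℕ}
    (hβ : ∀ x ∈ S, f x < β) : cm β (sq (uni S f)) = (S.card : ℝ)⁻¹ := by
  classical
  rcases S.eq_empty_or_nonempty with rfl | hS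
  · simp [uni, sq]
  have hc : (S.card : ℝ) ≠ 0 := by exact_mod_cast hS.card_pos.ne'
  simp only [sq, uni, map_smul, map_sum, smul_mul_smul_comm, Finset.sum_mul_sum, dil_single,
    AddMonoidAlgebra.single_mul_single, cm_single, smul_eq_mul, mul_one]
  have : ∀ x ∈ S, ∑ y ∈ S, (if (β : ℤ) ∣ (f x : ℤ) + -1 * (f y : ℤ) then (1 : ℝ) else 0) = 1 := by
    intro x hx
    rw [Finset.sum_eq_single x]
    · simp
    · intro y hy hyx
      rw [if_neg]
      intro hd
      have h1 := hβ x hx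
      have h2 := hβ y hy
      have h3 := Int.eq_zero_of_abs_lt_dvd hd (by rw [abs_lt]; constructor <;> omega)
      exact hyx (hinj hy hx (by omega))
    · intro h; exact absurd hx h
  rw [Finset.sum_congr rfl this]
  simp [hc]

lemma norm_ev_uni_range {T β : ℕ} (hβ : 0 < β) {a : ℕ} (ha : ¬ β ∣ a) :
    ‖ev ((a : ℝ) / β) (uni (range T) (fun x => x + 1))‖ ≤ (β : ℝ) / T := by
  rw [ev_uni, norm_mul, norm_inv, Complex.norm_natCast, card_range, div_eq_inv_mul (β : ℝ)]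
  apply mul_le_mul_of_nonneg_left _ (by positivity)
  have e : ∀ x : ℕ, ee (((x + 1 : ℕ) : ℤ) * ((a : ℝ) / β)) =
      ee ((a : ℤ) * (((x + 1 : ℕ) : ℝ) / β)) := by
    intro x; congr 1; push_cast; ring
  simp only [e]
  rw [← Nat.div_add_mod T β, Finset.sum_range_add, sum_ee hβ (Dvd.intro _ rfl),
    if_neg (by exact_mod_cast ha), zero_add]
  refine (norm_sum_le _ _).trans ?_
  simp only [norm_ee, sum_const, card_range, nsmul_eq_mul, mul_one]
  exact_mod_cast (Nat.mod_lt T hβ).le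

/-- every point of the support is a sum of at most `K` divisors of `M` -/
def Gd (M K : ℕ) (F : Al) : Prop :=
  ∀ n ∈ F.coeff.support, ∃ s : Multiset ℕ, s.card ≤ K ∧ (∀ d ∈ s, d ∣ M) ∧ n = (s.sum : ℕ)

lemma Gd.mono {M K M' K' : ℕ} {F : Al} (h : Gd M K F) (hM : M ∣ M') (hK : K ≤ K') : Gd M' K' F := by
  intro n hn
  obtain ⟨s, h1, h2, h3⟩ := h n hn
  exact ⟨s, h1.trans hK, fun d hd => (h2 d hd).trans hM, h3⟩

lemma Gd.mul {M K K' : ℕ} {F G : Al} (h : Gd M K F) (h' : Gd M K' G) : Gd M (K + K') (F * G) := by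
  intro n hn
  obtain ⟨u, hu, v, hv, rfl⟩ := mem_support_mul hn
  obtain ⟨s, h1, h2, rfl⟩ := h u hu
  obtain ⟨s', h1', h2', rfl⟩ := h' v hv
  refine ⟨s + s', by rw [Multiset.card_add]; omega, ?_, by simp⟩
  intro d hd
  rw [Multiset.mem_add] at hd
  exact hd.elim (h2 d) (h2' d)

lemma Gd.one (M : ℕ) : Gd M 0 1 := by
  intro n hn
  have := AddMonoidAlgebra.support_coeff_one_subset hn
  rw [Finset.mem_zero] at this
  exact ⟨0, by simp, by simp, by simp [this]⟩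

lemma Gd.pow {M K : ℕ} {F : Al} (h : Gd M K F) (i : ℕ) : Gd M (i * K) (F ^ i) := by
  induction i with
  | zero => simpa using Gd.one M
  | succ i ih => rw [pow_succ, add_mul, one_mul]; exact ih.mul h

lemma Gd.prod {ι : Type} {M K : ℕ} (S : Finset ι) (F : ι → Al) (h : ∀ i ∈ S, Gd M K (F i)) :
    Gd M (S.card * K) (∏ i ∈ S, F i) := by
  classical
  induction S using Finset.induction_on with
  | empty => simpa using Gd.one M
  | insert a S ha ih =>
    rw [prod_insert ha, card_insert_of_notMem ha, add_mul, one_mul, add_comm]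
    exact (h a (by simp)).mul (ih fun i hi => h i (by simp [hi]))

lemma Gd.dil {M K : ℕ} {F : Al} (h : Gd M K F) (y : ℕ) : Gd (y * M) K (dil y F) := by
  intro n hn
  obtain ⟨u, hu, rfl⟩ := mem_support_dil hn
  obtain ⟨s, h1, h2, rfl⟩ := h u hu
  refine ⟨s.map (fun d => y * d), by simpa using h1, ?_, ?_⟩
  · intro d hd
    rw [Multiset.mem_map] at hd
    obtain ⟨e, he, rfl⟩ := hd
    exact mul_dvd_mul_left _ (h2 e he)
  · rw [Multiset.sum_map_mul_left, Multiset.map_id']; push_cast; ring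

lemma Gd.of_dvd {M : ℕ} {F : Al} (h : ∀ n ∈ F.coeff.support, ∃ d : ℕ, n = d ∧ d ∣ M) :
    Gd M 1 F := by
  intro n hn
  obtain ⟨d, rfl, hd⟩ := h n hn
  exact ⟨{d}, by simp, by simpa using hd, by simp⟩

lemma Gd.uni {ι : Type} {M : ℕ} {S : Finset ι} {f : ι → ℕ} (h : ∀ x ∈ S, f x ∣ M) :
    Gd M 1 (uni S f) := by
  apply Gd.of_dvd
  intro n hn
  obtain ⟨x, hx, rfl⟩ := mem_support_uni hn
  exact ⟨_, rfl, h x hx⟩

lemma cm_sq_pow_nonneg {β : ℕ} (hβ : 0 < β) (H : Al) (i : ℕ) : 0 ≤ cm β (sq H ^ i) := by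
  have : cm β 0 ≤ cm β (sq H ^ i) := by
    apply cm_mono hβ
    intro t
    rw [ev_sq_pow]
    simp only [map_zero, Complex.zero_re, Complex.ofReal_re]
    positivity
  simpa using this

lemma avg_le {β V : ℕ} (hβ : 0 < β) (hV : β ≤ V) {a : ℕ} (ha : Nat.Coprime β a) (H : Al) (i : ℕ) :
    ∑ y ∈ range V, ‖ev (((y + 1 : ℕ) : ℤ) * ((a : ℝ) / β)) H‖ ^ (2 * i) ≤
      V * (2 * cm β (sq H ^ i)) := by
  set N := β * (V / β + 1) with hN
  have hN1 : V ≤ N := by
    have := Nat.div_add_mod V β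
    have := Nat.mod_lt V hβ
    rw [hN, mul_add]; omega
  have hN2 : N ≤ 2 * V := by
    have := Nat.mul_div_le V β
    rw [hN, mul_add]; omega
  have h1 := congrArg Complex.re (sum_ev hβ (Dvd.intro _ hN.symm) 1 (dil a (sq H ^ i)))
  rw [cm_dil (Nat.isCoprime_iff_coprime.2 ha)] at h1
  simp only [Complex.re_sum, Complex.mul_re, Complex.natCast_re, Complex.ofReal_re,
    Complex.natCast_im, Complex.ofReal_im, mul_zero, sub_zero, ev_dil, ev_sq_pow] at h1
  have e : ∀ y : ℕ, (((y + 1 : ℕ) : ℤ) : ℝ) * ((a : ℝ) / β) =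
      ((a : ℤ) : ℝ) * (((y + 1 : ℕ) : ℝ) / β) := by
    intro y; push_cast; ring
  simp only [e]
  refine (Finset.sum_le_sum_of_subset_of_nonneg (range_subset_range.2 hN1)
    (fun _ _ _ => by positivity)).trans ?_
  rw [h1]
  have h2 := cm_sq_pow_nonneg hβ H i
  have h3 : (N : ℝ) ≤ 2 * V := by exact_mod_cast hN2
  nlinarith

/-- choosing multipliers one at a time -/
lemma exists_multipliers {Θ : Type} (S : Finset Θ) {V : ℕ} (hV : 0 < V) (g : Θ → ℕ → ℝ)
    (η : Θ → ℝ) (hg : ∀ θ y, 0 ≤ g θ y) (hη : ∀ θ ∈ S, 0 ≤ η θ)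
    (h : ∀ θ ∈ S, ∑ y ∈ range V, g θ y ≤ V * η θ) (L : ℕ) :
    ∀ c : Θ → ℝ, (∀ θ, 0 ≤ c θ) → ∃ ys : Fin L → ℕ, (∀ i, ys i < V) ∧
      ∑ θ ∈ S, c θ * ∏ i, g θ (ys i) ≤ ∑ θ ∈ S, c θ * η θ ^ L := by
  induction L with
  | zero => intro c _; exact ⟨Fin.elim0, fun i => i.elim0, by simp⟩
  | succ L ih =>
    intro c hc
    have h1 : ∑ y ∈ range V, ∑ θ ∈ S, (c θ * g θ y) * η θ ^ L ≤
        ∑ _y ∈ range V, ∑ θ ∈ S, c θ * η θ ^ (L + 1) := by
      rw [Finset.sum_comm, Finset.sum_const, card_range, nsmul_eq_mul, Finset.mul_sum]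
      apply Finset.sum_le_sum
      intro θ hθ
      rw [← Finset.sum_mul, ← Finset.mul_sum]
      have h2 := mul_le_mul_of_nonneg_left (h θ hθ) (hc θ)
      have h3 := mul_le_mul_of_nonneg_right h2 (pow_nonneg (hη θ hθ) L)
      calc _ ≤ _ := h3
        _ = _ := by ring
    obtain ⟨y, hy, hy'⟩ := Finset.exists_le_of_sum_le (nonempty_range_iff.2 hV.ne') h1
    obtain ⟨ys, hys, hle⟩ := ih (fun θ => c θ * g θ y) (fun θ => mul_nonneg (hc θ) (hg θ y))
    refine ⟨Fin.cons y ys, ?_, ?_⟩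
    · intro i
      refine Fin.cases ?_ (fun j => ?_) i
      · simpa using hy
      · simpa using hys j
    · refine le_trans (le_of_eq ?_) (hle.trans hy')
      apply Finset.sum_congr rfl
      intro θ _
      rw [Fin.prod_univ_succ]
      simp [mul_assoc]

lemma num_lemma {x Y B : ℝ} {a b L : ℕ} (hx : 0 ≤ x) (hY : 1 ≤ Y) (ha : a ≠ 0)
    (h : x ^ a * Y ≤ 1) (hB0 : 0 ≤ B) (hB : B ≤ Y ^ b) (hL : a * b ≤ L) : x ^ L * B ≤ 1 := by
  have hxa : 0 ≤ x ^ a := by positivity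
  have h1 : x ^ a ≤ 1 := by nlinarith
  have h2 : x ≤ 1 := (pow_le_one_iff_of_nonneg hx ha).1 h1
  have h3 : x ^ L ≤ (x ^ a) ^ b := by
    rw [← pow_mul]; exact pow_le_pow_of_le_one hx h2 hL
  calc x ^ L * B ≤ (x ^ a) ^ b * Y ^ b := mul_le_mul h3 hB hB0 (by positivity)
    _ = (x ^ a * Y) ^ b := by rw [mul_pow]
    _ ≤ 1 := pow_le_one₀ (by positivity) h

/-- from small Fourier coefficients to covering all residues -/
lemma cover_of_small {A : ℕ} (hA : 0 < A) (Φ : Al) (h0 : ev 0 Φ = 1)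
    (h : ∑ ξ ∈ (range A).erase 0, ‖ev ((ξ : ℝ) / A) Φ‖ < 1) (c : ℤ) :
    ∃ n ∈ Φ.coeff.support, (A : ℤ) ∣ n - c := by
  by_contra hcon
  push Not at hcon
  have h1 : cm A (Φ * AddMonoidAlgebra.single (-c) 1) = 0 := by
    rw [cm_apply]
    apply Finset.sum_eq_zero
    intro n hn
    obtain ⟨u, hu, v, hv, rfl⟩ := mem_support_mul hn
    rw [AddMonoidAlgebra.coeff_single, Finsupp.support_single _ one_ne_zero, mem_singleton] at hv
    subst hv
    rw [if_neg]
    simpa [sub_eq_add_neg] using hcon u hu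
  have h2 := sum_ev hA (dvd_refl A) 0 (Φ * AddMonoidAlgebra.single (-c) 1)
  rw [h1, ← Finset.add_sum_erase _ _ (mem_range.2 hA)] at h2
  simp only [add_zero, Nat.cast_zero, zero_div, map_mul, h0, ev_single, mul_zero, ee_zero,
    Complex.ofReal_one, mul_one, one_mul, Complex.ofReal_zero] at h2
  have h3 : ‖∑ ξ ∈ (range A).erase 0, ev ((ξ : ℝ) / A) Φ * ee (((-c : ℤ) : ℝ) * ((ξ : ℝ) / A))‖ < 1 := by
    refine (norm_sum_le _ _).trans_lt ?_
    simpa [norm_ee] using h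
  rw [eq_neg_of_add_eq_zero_right h2] at h3
  simp at h3

end Crest.Agent.R19
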